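import Vale.Agent.P224.S9.ZeroF
import Vale.Agent.P224.S9.RegX
import Vale.Agent.P224.SP.LogB

/-!
The certificate with a parameter in dimension 9 at the parameter zero: data.
-/

namespace Vale.Agent.P224.S9

open Vale.Agent.P224.UE Vale.Agent.P224.POS Vale.Agent.P224.PO Vale.Agent.P224.SO Set
open scoped RealInnerProductSpace

noncomputable section

/-- the values at zero of the free value functions, times the denominator -/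
def F0 : List (VK × ℤ) := [
  (⟨5, 0, 0, 0, 0⟩, 283129329329280000),
  (⟨5, 0, 0, 0, 1⟩, -566258658658560000),
  (⟨5, 0, 0, 0, 2⟩, 283129329329280000),
  (⟨5, 0, 1, 0, 0⟩, 541406014736720000),
  (⟨5, 0, 1, 0, 1⟩, -516553370814880000),
  (⟨5, 0, 1, 0, 2⟩, -24852643921840000),
  (⟨5, 0, 1, 1, 0⟩, 116712020742800000),
  (⟨5, 0, 1, 1, 1⟩, 24852643921840000),
  (⟨5, 0, 2, 0, 0⟩, 116712020742800000),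
  (⟨5, 0, 2, 0, 1⟩, 24852643921840000),
  (⟨5, 0, 2, 1, 0⟩, -18639482941380000),
  (⟨5, 0, 3, 0, 0⟩, -6213160980460000),
  (⟨5, 1, 0, 0, 0⟩, -565512709852160000),
  (⟨5, 1, 0, 0, 1⟩, 564766761045760000),
  (⟨5, 1, 0, 0, 2⟩, 745948806400000),
  (⟨5, 1, 1, 0, 0⟩, -515061473202080000),
  (⟨5, 1, 1, 0, 1⟩, -51197185456480000),
  (⟨5, 1, 1, 0, 2⟩, 0),
  (⟨5, 1, 1, 1, 0⟩, 25225618325040000),
  (⟨5, 1, 1, 1, 1⟩, 0),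
  (⟨5, 1, 2, 0, 0⟩, 25225618325040000),
  (⟨5, 1, 2, 0, 1⟩, 0),
  (⟨5, 1, 2, 1, 0⟩, 0),
  (⟨5, 1, 3, 0, 0⟩, 0),
  (⟨5, 2, 0, 0, 0⟩, 281637431716480000),
  (⟨5, 2, 0, 0, 1⟩, 1491897612800000),
  (⟨5, 2, 0, 0, 2⟩, 0),
  (⟨5, 2, 1, 0, 0⟩, -26344541534640000),
  (⟨5, 2, 1, 0, 1⟩, 0),
  (⟨5, 2, 1, 0, 2⟩, 0),
  (⟨5, 2, 1, 1, 0⟩, 0),
  (⟨5, 2, 1, 1, 1⟩, 0),
  (⟨5, 2, 2, 0, 0⟩, 0),
  (⟨5, 2, 2, 0, 1⟩, 0),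
  (⟨5, 2, 2, 1, 0⟩, 0),
  (⟨5, 2, 3, 0, 0⟩, 0),
  (⟨5, 3, 0, 0, 0⟩, 745948806400000),
  (⟨5, 3, 0, 0, 1⟩, 0),
  (⟨5, 3, 1, 0, 0⟩, 0),
  (⟨5, 3, 1, 0, 1⟩, 0),
  (⟨5, 3, 1, 1, 0⟩, 0),
  (⟨5, 3, 2, 0, 0⟩, 0),
  (⟨5, 4, 0, 0, 0⟩, 0),
  (⟨5, 4, 1, 0, 0⟩, 0),
  (⟨6, 0, 0, 0, 0⟩, -530765089979040000),
  (⟨6, 0, 0, 0, 1⟩, 1061530179958080000),
  (⟨6, 0, 0, 0, 2⟩, -530765089979040000),
  (⟨6, 0, 1, 0, 0⟩, -1015481554239600000),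
  (⟨6, 0, 1, 0, 1⟩, 969432928521120000),
  (⟨6, 0, 1, 0, 2⟩, 46048625718480000),
  (⟨6, 0, 1, 1, 0⟩, -930567272743080000),
  (⟨6, 0, 1, 1, 1⟩, 312602760367240000),
  (⟨6, 0, 1, 1, 2⟩, 4952464561800000),
  (⟨6, 0, 2, 0, 0⟩, 501804363324600000),
  (⟨6, 0, 2, 0, 1⟩, -424509870051400000),
  (⟨6, 0, 2, 0, 2⟩, 4952464561800000),
  (⟨6, 0, 2, 1, 0⟩, -66696419874980000),
  (⟨6, 0, 2, 1, 1⟩, -191233648739700000),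
  (⟨6, 0, 2, 2, 0⟩, 3714348421350000),
  (⟨6, 0, 3, 0, 0⟩, 132554903840660000),
  (⟨6, 0, 3, 0, 1⟩, 171423790492500000),
  (⟨6, 0, 3, 1, 0⟩, 4952464561800000),
  (⟨6, 0, 4, 0, 0⟩, 1238116140450000),
  (⟨6, 1, 0, 0, 0⟩, 1061530179958080000),
  (⟨6, 1, 0, 0, 1⟩, -1061530179958080000),
  (⟨6, 1, 1, 0, 0⟩, 969432928521120000),
  (⟨6, 1, 1, 0, 1⟩, 92097251436960000),
  (⟨6, 1, 1, 1, 0⟩, -26257550557280000),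
  (⟨6, 1, 1, 1, 1⟩, 9904929123600000),
  (⟨6, 1, 1, 1, 2⟩, 0),
  (⟨6, 1, 2, 0, 0⟩, -85649559126880000),
  (⟨6, 1, 2, 0, 1⟩, 9904929123600000),
  (⟨6, 1, 2, 0, 2⟩, 0),
  (⟨6, 1, 2, 1, 0⟩, -14857393685400000),
  (⟨6, 1, 2, 1, 1⟩, 0),
  (⟨6, 1, 2, 2, 0⟩, 0),
  (⟨6, 1, 3, 0, 0⟩, -4952464561800000),
  (⟨6, 1, 3, 0, 1⟩, 0),
  (⟨6, 1, 3, 1, 0⟩, 0),
  (⟨6, 1, 4, 0, 0⟩, 0),
  (⟨6, 2, 0, 0, 0⟩, -530765089979040000),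
  (⟨6, 2, 1, 0, 0⟩, 46048625718480000),
  (⟨6, 2, 1, 1, 0⟩, 4952464561800000),
  (⟨6, 2, 1, 1, 1⟩, 0),
  (⟨6, 2, 1, 1, 2⟩, 0),
  (⟨6, 2, 2, 0, 0⟩, 4952464561800000),
  (⟨6, 2, 2, 0, 1⟩, 0),
  (⟨6, 2, 2, 0, 2⟩, 0),
  (⟨6, 2, 2, 1, 0⟩, 0),
  (⟨6, 2, 2, 1, 1⟩, 0),
  (⟨6, 2, 2, 2, 0⟩, 0),
  (⟨6, 2, 3, 0, 0⟩, 0),
  (⟨6, 2, 3, 0, 1⟩, 0),
  (⟨6, 2, 3, 1, 0⟩, 0),
  (⟨6, 2, 4, 0, 0⟩, 0),
  (⟨6, 3, 1, 1, 0⟩, 0),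
  (⟨6, 3, 1, 1, 1⟩, 0),
  (⟨6, 3, 2, 0, 0⟩, 0),
  (⟨6, 3, 2, 0, 1⟩, 0),
  (⟨6, 3, 2, 1, 0⟩, 0),
  (⟨6, 3, 3, 0, 0⟩, 0),
  (⟨6, 4, 1, 1, 0⟩, 0),
  (⟨6, 4, 2, 0, 0⟩, 0),
  (⟨7, 0, 0, 0, 0⟩, 330981611214240000),
  (⟨7, 0, 0, 0, 1⟩, -661963222428480000),
  (⟨7, 0, 0, 0, 2⟩, 330981611214240000),
  (⟨7, 0, 1, 0, 0⟩, 633300541796160000),
  (⟨7, 0, 1, 0, 1⟩, -604637861163840000),
  (⟨7, 0, 1, 0, 2⟩, -28662680632320000),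
  (⟨7, 0, 1, 1, 0⟩, 651193607305080000),
  (⟨7, 0, 1, 1, 1⟩, -660717285379200000),
  (⟨7, 0, 1, 1, 2⟩, 7739283691440000),
  (⟨7, 0, 2, 0, 0⟩, -362058789972600000),
  (⟨7, 0, 2, 0, 1⟩, 687085511878080000),
  (⟨7, 0, 2, 0, 2⟩, 7739283691440000),
  (⟨7, 0, 2, 1, 0⟩, 130165335258840000),
  (⟨7, 0, 2, 1, 1⟩, 234950756317200000),
  (⟨7, 0, 2, 2, 0⟩, -2506146583425660000),
  (⟨7, 0, 2, 2, 1⟩, -224239594783050000),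
  (⟨7, 0, 3, 0, 0⟩, -127870881125400000),
  (⟨7, 0, 3, 0, 1⟩, -265907891082960000),
  (⟨7, 0, 3, 1, 0⟩, 7739283691440000),
  (⟨7, 0, 4, 0, 0⟩, 2513885867117100000),
  (⟨7, 0, 4, 0, 1⟩, 224239594783050000),
  (⟨7, 1, 0, 0, 0⟩, -661963222428480000),
  (⟨7, 1, 0, 0, 1⟩, 661963222428480000),
  (⟨7, 1, 1, 0, 0⟩, -604637861163840000),
  (⟨7, 1, 1, 0, 1⟩, -57325361264640000),
  (⟨7, 1, 1, 1, 0⟩, 13184113249440000),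
  (⟨7, 1, 1, 1, 1⟩, 15478567382880000),
  (⟨7, 1, 2, 0, 0⟩, 13184113249440000),
  (⟨7, 1, 2, 0, 1⟩, 15478567382880000),
  (⟨7, 1, 2, 1, 0⟩, -23217851074320000),
  (⟨7, 1, 2, 2, 0⟩, 0),
  (⟨7, 1, 2, 2, 1⟩, 0),
  (⟨7, 1, 3, 0, 0⟩, -7739283691440000),
  (⟨7, 1, 4, 0, 0⟩, 0),
  (⟨7, 1, 4, 0, 1⟩, 0),
  (⟨7, 2, 0, 0, 0⟩, 330981611214240000),
  (⟨7, 2, 1, 0, 0⟩, -28662680632320000),
  (⟨7, 2, 1, 1, 0⟩, 7739283691440000),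
  (⟨7, 2, 2, 0, 0⟩, 7739283691440000),
  (⟨7, 2, 2, 2, 0⟩, 0),
  (⟨7, 2, 2, 2, 1⟩, 0),
  (⟨7, 2, 4, 0, 0⟩, 0),
  (⟨7, 2, 4, 0, 1⟩, 0),
  (⟨8, 0, 0, 0, 0⟩, -83893803764400000),
  (⟨8, 0, 0, 0, 1⟩, 167787607528800000),
  (⟨8, 0, 0, 0, 2⟩, -83893803764400000),
  (⟨8, 0, 1, 0, 0⟩, -160089882261120000),
  (⟨8, 0, 1, 0, 1⟩, 152392156993440000),
  (⟨8, 0, 1, 0, 2⟩, 7697725267680000),
  (⟨8, 0, 1, 1, 0⟩, 171336410700840000),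
  (⟨8, 0, 1, 1, 1⟩, 322799828226120000),
  (⟨8, 0, 1, 1, 2⟩, -12691748253240000),
  (⟨8, 0, 2, 0, 0⟩, -265218260436360000),
  (⟨8, 0, 2, 0, 1⟩, -287428285748520000),
  (⟨8, 0, 2, 0, 2⟩, -12691748253240000),
  (⟨8, 0, 2, 1, 0⟩, -70011313530480000),
  (⟨8, 0, 2, 1, 1⟩, -43717107577500000),
  (⟨8, 0, 2, 2, 0⟩, 2502432235004310000),
  (⟨8, 0, 2, 2, 1⟩, 224239594783050000),
  (⟨8, 0, 3, 0, 0⟩, 26942045785200000),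
  (⟨8, 0, 3, 0, 1⟩, 94484100590460000),
  (⟨8, 0, 3, 1, 0⟩, -12691748253240000),
  (⟨8, 0, 4, 0, 0⟩, -2515123983257550000),
  (⟨8, 0, 4, 0, 1⟩, -224239594783050000),
  (⟨8, 1, 0, 0, 0⟩, 167787607528800000),
  (⟨8, 1, 0, 0, 1⟩, -167787607528800000),
  (⟨8, 1, 1, 0, 0⟩, 152392156993440000),
  (⟨8, 1, 1, 0, 1⟩, 15395450535360000),
  (⟨8, 1, 1, 1, 0⟩, 17685771238800000),
  (⟨8, 1, 1, 1, 1⟩, -25383496506480000),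
  (⟨8, 1, 2, 0, 0⟩, 17685771238800000),
  (⟨8, 1, 2, 0, 1⟩, -25383496506480000),
  (⟨8, 1, 2, 1, 0⟩, 38075244759720000),
  (⟨8, 1, 3, 0, 0⟩, 12691748253240000),
  (⟨8, 2, 0, 0, 0⟩, -83893803764400000),
  (⟨8, 2, 1, 0, 0⟩, 7697725267680000),
  (⟨8, 2, 1, 1, 0⟩, -12691748253240000),
  (⟨8, 2, 2, 0, 0⟩, -12691748253240000)]

/-- the kernel identity for the free value functions at zero -/
theorem F0_id : chk [] ((PE.mul (.c 1) (fPE F0)).sub (zPE (-153654881833600000) 395991212960000 22214080000))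
    = true := by
  decide +kernel

lemma logl : Real.log (16 / 5) = (4) * Real.log 2 + (-1) * Real.log 5 := by
  rw [Real.log_div (by norm_num) (by norm_num)]
  have h16 : Real.log 16 = 4 * Real.log 2 := by
    rw [show (16 : ℝ) = (2 : ℝ) ^ 4 by norm_num]
    simp only [Real.log_pow]
    norm_num
  have h5 : Real.log 5 = 1 * Real.log 5 := by
    rw [show (5 : ℝ) = (5 : ℝ) ^ 1 by norm_num]
    simp only [Real.log_pow]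
    norm_num
  rw [h16, h5]
  ring

/-- the small number of the identity at zero -/
def XD : ℝ := (-6 * Real.log (16 / 5) + 7)

lemma XD_bd : (210951409 / 10000000000) ≤ XD ∧ XD ≤ (42190283 / 2000000000) := by
  have b2 := LG.bd2
  have b5 := LG.bd5
  unfold XD
  rw [logl]
  constructor <;> linarith [b2.1, b2.2, b5.1, b5.2]

/-- the coefficient of the cube -/
def kapD : ℝ := (4373397 / 1048576)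

/-- the coefficient of `‖e‖ ^ 2` -/
def gamD : ℝ := (12416 / 1701) + (-2560 / 567) * Real.log (16 / 5) + (5120 / 567) * KK + (13432 / 2893401) * kapD

/-- the coefficient of the resource -/
def rhoD : ℝ := (900 / 157) * (-6 * Real.log (16 / 5) + 7)

/-- **The inequality at the parameter zero**, with the data. -/
theorem h0_D {Vp Vf : List VE}
    (hp : (Vp.map fun x => (x.K, x.g 0)) = pivV ll KK)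
    (hf : (Vf.map fun x => (x.K, x.g 0)) = F0.map fun y => (y.1, (y.2 : ℝ) / 7705271992320000))
    {E : Type*} [NormedAddCommGroup E] [InnerProductSpace ℝ E] (x N y w : E) :
    ((lG (Vp ++ Vf)).map fun t => t.φ 0 * t.Q (dv x N y w 0)).sum
      ≤ √9 * (1 + gamD * dv x N y w (0 : E) 3
          - (rhoD * RF (-(77/18)) 48 (-((7 / 20) * √20)) (dv x N y w 0)
            + kapD * dv x N y w (0 : E) 0 ^ 3) + R00 (√20) ll kapD (dv x N y w 0)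
          - ((111 / 1000) * ((⟪x, w⟫ - ⟪N, y⟫) / 2) ^ 2
            + (11 / 1000) * (⟪N, w⟫ - ⟪x, y⟫ - √20 / 20 * ((⟪x, w⟫ + ⟪N, y⟫) / 2)) ^ 2)) :=
  h0_of (l := ll) (K := KK) (κ := kapD) (ℓu := (111 / 1000)) (ℓv := (11 / 1000)) XD_bd.1 XD_bd.2 hp hf
    (fun f hf5 =>
      hQ_of F0_id (D0 := 7705271992320000) (by norm_num) (by norm_num)
        (by unfold kapD; norm_num) (by norm_num) (by norm_num) f hf5) x N y w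

end

end Vale.Agent.P224.S9
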