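import Vale.Agent.P224.S9.ZeroD

/-!
Numerical bounds for the constants of the certificate with a parameter in dimension 9.
-/

namespace Vale.Agent.P224.S9

noncomputable section

lemma L13_one : L13 1 = Real.log ((7 + 3 * √5) / 2) := by
  have h : √(20 / 9 : ℝ) = (2 / 3) * √5 := by
    rw [show (20 / 9 : ℝ) = ((2 / 3) * √5) ^ 2 by
      rw [mul_pow, Real.sq_sqrt (by norm_num)]; norm_num]
    exact Real.sqrt_sq (by positivity)
  unfold L13 SP.qL SP.qD SP.qR
  rw [show (1 : ℝ) + 10 / 9 * 1 + 1 / 9 * 1 ^ 2 = 20 / 9 by norm_num, h]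
  congr 1
  ring

lemma log_rho : Real.log (48 / 7) = (4) * Real.log 2 + (1) * Real.log 3 + (-1) * Real.log 7 := by
  rw [Real.log_div (by norm_num) (by norm_num)]
  have h48 : Real.log 48 = 4 * Real.log 2 + 1 * Real.log 3 := by
    rw [show (48 : ℝ) = (2 : ℝ) ^ 4 * (3 : ℝ) ^ 1 by norm_num]
    rw [Real.log_mul (by norm_num) (by norm_num)]
    simp only [Real.log_pow]
    norm_num
  have h7 : Real.log 7 = 1 * Real.log 7 := by
    rw [show (7 : ℝ) = (7 : ℝ) ^ 1 by norm_num]
    simp only [Real.log_pow]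
    norm_num
  rw [h48, h7]
  ring

lemma log_lg : Real.log (4 / 5) = (2) * Real.log 2 + (-1) * Real.log 5 := by
  rw [Real.log_div (by norm_num) (by norm_num)]
  have h4 : Real.log 4 = 2 * Real.log 2 := by
    rw [show (4 : ℝ) = (2 : ℝ) ^ 2 by norm_num]
    simp only [Real.log_pow]
    norm_num
  have h5 : Real.log 5 = 1 * Real.log 5 := by
    rw [show (5 : ℝ) = (5 : ℝ) ^ 1 by norm_num]
    simp only [Real.log_pow]
    norm_num
  rw [h4, h5]
  ring

lemma KK_bd : (-16859 : ℝ) / 100000 ≤ KK ∧ KK ≤ -16858 / 100000 := by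
  have b2 := LG.bd2
  have b3 := LG.bd3
  have b5 := LG.bd5
  have b7 := LG.bd7
  have s1 : (2236067976 : ℝ) / 1000000000 ≤ √5 := Real.le_sqrt_of_sq_le (by norm_num)
  have s2 : √(5 : ℝ) ≤ 2236067978 / 1000000000 := Real.sqrt_le_iff.2 ⟨by norm_num, by norm_num⟩
  have s3 : √(5 : ℝ) ^ 2 = 5 := Real.sq_sqrt (by norm_num)
  have up : Real.log ((7 + 3 * √5) / 2) ≤ Real.log (48 / 7)
      + (7 + 3 * √5) / 2 * (7 / 48) - 1 := by
    have h1 : Real.log ((7 + 3 * √5) / 2 * (7 / 48))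
        = Real.log ((7 + 3 * √5) / 2) + Real.log (7 / 48) :=
      Real.log_mul (by positivity) (by norm_num)
    have h2 : Real.log (7 / 48) = -Real.log (48 / 7) := by
      rw [← Real.log_inv]
      norm_num
    have h3 := Real.log_le_sub_one_of_pos
      (show 0 < (7 + 3 * √5) / 2 * (7 / 48) by positivity)
    linarith
  have hpos : 0 < (7 - 3 * √5) / 2 := by
    have : 0 < 7 - 3 * √(5 : ℝ) := by linarith
    positivity
  have lo : Real.log (48 / 7) + 1 - (7 - 3 * √5) / 2 * (48 / 7)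
      ≤ Real.log ((7 + 3 * √5) / 2) := by
    have h1 : Real.log ((7 - 3 * √5) / 2 * (48 / 7))
        = Real.log ((7 - 3 * √5) / 2) + Real.log (48 / 7) :=
      Real.log_mul hpos.ne' (by norm_num)
    have h2 : Real.log ((7 - 3 * √5) / 2)
        = -Real.log ((7 + 3 * √5) / 2) := by
      rw [← Real.log_inv]
      congr 1
      exact eq_inv_of_mul_eq_one_left (by
        linear_combination (-(3 ^ 2 / (2 : ℝ) ^ 2)) * s3)
    have h3 := Real.log_le_sub_one_of_pos
      (show 0 < (7 - 3 * √5) / 2 * (48 / 7) from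
        mul_pos hpos (by norm_num))
    linarith
  unfold KK cst9
  rw [L13_one, log_lg]
  rw [log_rho] at up lo
  constructor <;> linarith [b2.1, b2.2, b3.1, b3.2, b5.1, b5.2, b7.1, b7.2]

lemma gamD_bd : (54461 : ℝ) / 100000 ≤ gamD ∧ gamD ≤ 54471 / 100000 := by
  have b2 := LG.bd2
  have b3 := LG.bd3
  have b5 := LG.bd5
  have b7 := LG.bd7
  have hK := KK_bd
  unfold gamD kapD
  rw [logl]
  constructor <;> linarith [b2.1, b2.2, b3.1, b3.2, b5.1, b5.2, b7.1, b7.2, hK.1, hK.2]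

lemma rhoD_bd : (120927 : ℝ) / 1000000 ≤ rhoD ∧ rhoD ≤ 120929 / 1000000 := by
  have h := XD_bd
  unfold XD at h
  unfold rhoD
  constructor <;> linarith [h.1, h.2]

end

end Vale.Agent.P224.S9
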