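import Vale.Agent.P224.SP.LogF

/-!
The functions of the flat sections for `m = 9`.
-/

namespace Vale.Agent.P224.S9

open Set Filter Real Vale.Agent.P224.SP
open scoped Topology

/-- `y1^2 = (1 - T) (1 + T/9)` -/
noncomputable def y1 (T : ℝ) : ℝ := √(qR (-8 / 9) (-1 / 9) T)

/-- `y2^2 = (1 + T) (1 - T/9)` -/
noncomputable def y2 (T : ℝ) : ℝ := √(qR (8 / 9) (-1 / 9) T)

/-- `b13^2 = (1 + T) (1 + T/9)` -/
noncomputable def b13 (T : ℝ) : ℝ := √(qR (10 / 9) (1 / 9) T)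

/-- `y12^2 = (1 - T^2) (1 - T^2/81)` -/
noncomputable def y12 (T : ℝ) : ℝ := √(qR (-82 / 81) (1 / 81) (T ^ 2))

/-- `l1` -/
noncomputable def l1 (T : ℝ) : ℝ := qL (-8 / 9) (-1 / 9) (5 / 9) T

/-- `L13` -/
noncomputable def L13 (T : ℝ) : ℝ := qL (10 / 9) (1 / 9) (4 / 9) T

/-- `L0` -/
noncomputable def L0 (T : ℝ) : ℝ := qL (-82 / 81) (1 / 81) (40 / 81) (T ^ 2)

/-- `f1 = y1 l1` -/
noncomputable def f1 (T : ℝ) : ℝ := y1 T * l1 T

/-- `f2 = y1 y2 L0` -/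
noncomputable def f2 (T : ℝ) : ℝ := y12 T * L0 T

/-- `f3 = b13 L13` -/
noncomputable def f3 (T : ℝ) : ℝ := b13 T * L13 T

lemma qR_1 (T : ℝ) : qR (-8 / 9) (-1 / 9) T = (1 - T) * (1 + T / 9) := by unfold qR; ring
lemma qR_2 (T : ℝ) : qR (8 / 9) (-1 / 9) T = (1 + T) * (1 - T / 9) := by unfold qR; ring
lemma qR_3 (T : ℝ) : qR (10 / 9) (1 / 9) T = (1 + T) * (1 + T / 9) := by unfold qR; ring
lemma qR_12 (T : ℝ) : qR (-82 / 81) (1 / 81) (T ^ 2) = (1 - T ^ 2) * (1 - T ^ 2 / 81) := by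
  unfold qR; ring

section

variable {T : ℝ}

lemma qR_1_pos (h0 : 0 < T) (h1 : T < 1) : 0 < qR (-8 / 9) (-1 / 9) T := by
  rw [qR_1]; exact mul_pos (by linarith) (by linarith)
lemma qR_2_pos (h0 : 0 < T) (h1 : T < 1) : 0 < qR (8 / 9) (-1 / 9) T := by
  rw [qR_2]; exact mul_pos (by linarith) (by linarith)
lemma qR_3_pos (h0 : 0 < T) (h1 : T ≤ 1) : 0 < qR (10 / 9) (1 / 9) T := by
  rw [qR_3]; exact mul_pos (by linarith) (by linarith)
lemma qR_12_pos (h0 : 0 < T) (h1 : T < 1) : 0 < qR (-82 / 81) (1 / 81) (T ^ 2) := by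
  rw [qR_12]; exact mul_pos (by nlinarith) (by nlinarith)
lemma qD_1_pos (h1 : T ≤ 1) : 0 < qD (-8 / 9) T := by unfold qD; linarith
lemma qD_3_pos (h0 : 0 < T) : 0 < qD (10 / 9) T := by unfold qD; linarith
lemma qD_12_pos (h0 : 0 < T) (h1 : T ≤ 1) : 0 < qD (-82 / 81) (T ^ 2) := by
  unfold qD; nlinarith

lemma y1_pos (h0 : 0 < T) (h1 : T < 1) : 0 < y1 T := Real.sqrt_pos.2 (qR_1_pos h0 h1)
lemma y2_pos (h0 : 0 < T) (h1 : T < 1) : 0 < y2 T := Real.sqrt_pos.2 (qR_2_pos h0 h1)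
lemma b13_pos (h0 : 0 < T) (h1 : T ≤ 1) : 0 < b13 T := Real.sqrt_pos.2 (qR_3_pos h0 h1)
lemma y12_pos (h0 : 0 < T) (h1 : T < 1) : 0 < y12 T := Real.sqrt_pos.2 (qR_12_pos h0 h1)

lemma y1_sq (h0 : 0 < T) (h1 : T < 1) : y1 T ^ 2 = (1 - T) * (1 + T / 9) := by
  unfold y1; rw [Real.sq_sqrt (qR_1_pos h0 h1).le, qR_1]
lemma y2_sq (h0 : 0 < T) (h1 : T < 1) : y2 T ^ 2 = (1 + T) * (1 - T / 9) := by
  unfold y2; rw [Real.sq_sqrt (qR_2_pos h0 h1).le, qR_2]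
lemma b13_sq (h0 : 0 < T) (h1 : T ≤ 1) : b13 T ^ 2 = (1 + T) * (1 + T / 9) := by
  unfold b13; rw [Real.sq_sqrt (qR_3_pos h0 h1).le, qR_3]
lemma y12_sq (h0 : 0 < T) (h1 : T < 1) : y12 T ^ 2 = (1 - T ^ 2) * (1 - T ^ 2 / 81) := by
  unfold y12; rw [Real.sq_sqrt (qR_12_pos h0 h1).le, qR_12]

lemma y12_eq (h0 : 0 < T) (h1 : T < 1) : y12 T = y1 T * y2 T := by
  have h2 : (y12 T) ^ 2 = (y1 T * y2 T) ^ 2 := by
    rw [mul_pow, y12_sq h0 h1, y1_sq h0 h1, y2_sq h0 h1]; ring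
  exact (pow_left_inj₀ (y12_pos h0 h1).le (mul_pos (y1_pos h0 h1) (y2_pos h0 h1)).le
    two_ne_zero).1 h2

lemma hasDerivAt_y1 (h0 : 0 < T) (h1 : T < 1) :
    HasDerivAt y1 (-(4 / 9 + T / 9) / y1 T) T := by
  have h := hasDerivAt_sqrtR (qR_1_pos h0 h1)
  refine h.congr_deriv ?_
  have h2 := (y1_pos h0 h1).ne'
  unfold y1 at *
  field_simp
  ring

lemma hasDerivAt_y2 (h0 : 0 < T) (h1 : T < 1) :
    HasDerivAt y2 ((4 / 9 - T / 9) / y2 T) T := by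
  have h := hasDerivAt_sqrtR (qR_2_pos h0 h1)
  refine h.congr_deriv ?_
  have h2 := (y2_pos h0 h1).ne'
  unfold y2 at *
  field_simp
  ring

lemma hasDerivAt_b13 (h0 : 0 < T) (h1 : T ≤ 1) : HasDerivAt b13 ((5 / 9 + T / 9) / b13 T) T := by
  have h := hasDerivAt_sqrtR (qR_3_pos h0 h1)
  refine h.congr_deriv ?_
  have h2 := (b13_pos h0 h1).ne'
  unfold b13 at *
  field_simp
  ring

lemma hasDerivAt_l1 (h0 : 0 < T) (h1 : T < 1) : HasDerivAt l1 (-1 / (T * y1 T)) T :=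
  hasDerivAt_qL (by norm_num) h0 (qR_1_pos h0 h1) (qD_1_pos h1.le)

lemma hasDerivAt_L13 (h0 : 0 < T) (h1 : T ≤ 1) : HasDerivAt L13 (-1 / (T * b13 T)) T :=
  hasDerivAt_qL (by norm_num) h0 (qR_3_pos h0 h1) (qD_3_pos h0)

lemma hasDerivAt_L0 (h0 : 0 < T) (h1 : T < 1) : HasDerivAt L0 (-2 / (T * y12 T)) T := by
  have h := hasDerivAt_qL (b := -82 / 81) (c := 1 / 81) (k := 40 / 81) (T := T ^ 2) (by norm_num)
    (by positivity) (qR_12_pos h0 h1) (qD_12_pos h0 h1.le)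
  have h2 : HasDerivAt L0 _ T :=
    HasDerivAt.comp (h₂ := qL (-82 / 81) (1 / 81) (40 / 81)) (h := fun T : ℝ => T ^ 2) T h
      (hasDerivAt_pow 2 T)
  refine h2.congr_deriv ?_
  have h3 := (y12_pos h0 h1).ne'
  unfold y12 at *
  have h4 := h0.ne'
  field_simp
  norm_num
  ring

lemma hasDerivAt_f1 (h0 : 0 < T) (h1 : T < 1) :
    HasDerivAt f1 (-(4 / 9 + T / 9) / ((1 - T) * (1 + T / 9)) * f1 T - 1 / T) T := by
  have h : HasDerivAt (fun T => y1 T * l1 T) _ T :=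
    (hasDerivAt_y1 h0 h1).fun_mul (hasDerivAt_l1 h0 h1)
  refine h.congr_deriv ?_
  have key : ∀ s q l : ℝ, 0 < s → s ^ 2 = q → -(4 / 9 + T / 9) / s * l + s * (-1 / (T * s)) =
      -(4 / 9 + T / 9) / q * (s * l) - 1 / T := by
    intro s q l hs hq
    subst hq
    have hs' := hs.ne'
    have hT' := h0.ne'
    field_simp
    ring
  exact key _ _ _ (y1_pos h0 h1) (y1_sq h0 h1)

lemma hasDerivAt_f3 (h0 : 0 < T) (h1 : T ≤ 1) :
    HasDerivAt f3 ((5 / 9 + T / 9) / ((1 + T) * (1 + T / 9)) * f3 T - 1 / T) T := by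
  have h : HasDerivAt (fun T => b13 T * L13 T) _ T :=
    (hasDerivAt_b13 h0 h1).fun_mul (hasDerivAt_L13 h0 h1)
  refine h.congr_deriv ?_
  have key : ∀ s q l : ℝ, 0 < s → s ^ 2 = q → (5 / 9 + T / 9) / s * l + s * (-1 / (T * s)) =
      (5 / 9 + T / 9) / q * (s * l) - 1 / T := by
    intro s q l hs hq
    subst hq
    have hs' := hs.ne'
    have hT' := h0.ne'
    field_simp
    ring
  exact key _ _ _ (b13_pos h0 h1) (b13_sq h0 h1)

lemma hasDerivAt_y12 (h0 : 0 < T) (h1 : T < 1) :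
    HasDerivAt y12 ((-82 / 81 * T + 2 / 81 * T ^ 3) / y12 T) T := by
  have h := hasDerivAt_sqrtR (b := -82 / 81) (c := 1 / 81) (T := T ^ 2) (qR_12_pos h0 h1)
  have h2 : HasDerivAt y12 _ T :=
    HasDerivAt.comp (h₂ := fun T => √(qR (-82 / 81) (1 / 81) T)) (h := fun T : ℝ => T ^ 2) T h
      (hasDerivAt_pow 2 T)
  refine h2.congr_deriv ?_
  have h3 := (y12_pos h0 h1).ne'
  unfold y12 at *
  field_simp
  norm_num
  ring

lemma hasDerivAt_f2 (h0 : 0 < T) (h1 : T < 1) :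
    HasDerivAt f2 ((-82 / 81 * T + 2 / 81 * T ^ 3) / ((1 - T ^ 2) * (1 - T ^ 2 / 81)) * f2 T
      - 2 / T) T := by
  have h : HasDerivAt (fun T => y12 T * L0 T) _ T :=
    (hasDerivAt_y12 h0 h1).fun_mul (hasDerivAt_L0 h0 h1)
  refine h.congr_deriv ?_
  have key : ∀ s q l : ℝ, 0 < s → s ^ 2 = q → (-82 / 81 * T + 2 / 81 * T ^ 3) / s * l +
      s * (-2 / (T * s)) = (-82 / 81 * T + 2 / 81 * T ^ 3) / q * (s * l) - 2 / T := by
    intro s q l hs hq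
    subst hq
    have hs' := hs.ne'
    have hT' := h0.ne'
    field_simp
    ring
  exact key _ _ _ (y12_pos h0 h1) (y12_sq h0 h1)

end

lemma l1_one : l1 1 = 0 := by
  unfold l1 qL qD qR
  norm_num

lemma L0_one : L0 1 = 0 := by
  unfold L0 qL qD qR
  norm_num

lemma tendsto_pow_mul_f1 {n : ℕ} (hn : n ≠ 0) :
    Tendsto (fun T => T ^ n * f1 T) (𝓝[>] 0) (𝓝 0) := by
  have h1 := tendsto_pow_mul_qL (b := -8 / 9) (c := -1 / 9) (k := 5 / 9) (by norm_num) hn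
  have h2 : Tendsto y1 (𝓝[>] 0) (𝓝 1) := by
    have h3 : Continuous y1 := (continuous_qR _ _).sqrt
    have h4 := h3.tendsto 0
    have h5 : y1 0 = 1 := by unfold y1; rw [qR_zero, Real.sqrt_one]
    rw [h5] at h4
    exact h4.mono_left nhdsWithin_le_nhds
  have h6 := h2.mul h1
  rw [mul_zero] at h6
  refine h6.congr fun T => ?_
  unfold f1 l1
  ring

lemma tendsto_pow_mul_f3 {n : ℕ} (hn : n ≠ 0) :
    Tendsto (fun T => T ^ n * f3 T) (𝓝[>] 0) (𝓝 0) := by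
  have h1 := tendsto_pow_mul_qL (b := 10 / 9) (c := 1 / 9) (k := 4 / 9) (by norm_num) hn
  have h2 : Tendsto b13 (𝓝[>] 0) (𝓝 1) := by
    have h3 : Continuous b13 := (continuous_qR _ _).sqrt
    have h4 := h3.tendsto 0
    have h5 : b13 0 = 1 := by unfold b13; rw [qR_zero, Real.sqrt_one]
    rw [h5] at h4
    exact h4.mono_left nhdsWithin_le_nhds
  have h6 := h2.mul h1
  rw [mul_zero] at h6
  refine h6.congr fun T => ?_
  unfold f3 L13
  ring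

lemma tendsto_pow_mul_f2 {n : ℕ} (hn : n ≠ 0) :
    Tendsto (fun T => T ^ (2 * n) * f2 T) (𝓝[>] 0) (𝓝 0) := by
  have h1 := tendsto_pow_mul_qL (b := -82 / 81) (c := 1 / 81) (k := 40 / 81) (by norm_num) hn
  have hsq : Tendsto (fun T : ℝ => T ^ 2) (𝓝[>] 0) (𝓝[>] 0) := by
    rw [tendsto_nhdsWithin_iff]
    constructor
    · have h := (continuous_pow 2).tendsto (0 : ℝ)
      rw [zero_pow two_ne_zero] at h
      exact h.mono_left nhdsWithin_le_nhds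
    · filter_upwards [eventually_mem_nhdsWithin] with T hT
      exact pow_pos (show (0 : ℝ) < T from hT) 2
  have h1' := h1.comp hsq
  have h2 : Tendsto y12 (𝓝[>] 0) (𝓝 1) := by
    have h3 : Continuous y12 := ((continuous_qR _ _).comp (continuous_pow 2)).sqrt
    have h4 := h3.tendsto 0
    have h5 : y12 0 = 1 := by unfold y12; rw [zero_pow two_ne_zero, qR_zero, Real.sqrt_one]
    rw [h5] at h4
    exact h4.mono_left nhdsWithin_le_nhds
  have h6 := h2.mul h1'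
  rw [mul_zero] at h6
  refine h6.congr fun T => ?_
  simp only [Function.comp]
  unfold f2 L0
  rw [← pow_mul]
  ring

end Vale.Agent.P224.S9
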