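import Vale.Agent.P224.SP.Left5
import Vale.Agent.P224.S9.Fun9

/-!
Polynomial models at `T = 0` for `m = 9`: on `(0, 1/4]`, with remainder a multiple of `T ^ 24`.
-/

namespace Vale.Agent.P224.S9

open Set Filter Real
open Vale.Agent.P224.SP (qR qD qL qU qL_eq_qU Ap SL wL evq ev ev_cons ev_nil ap_of_evq sqL ev_sqL
  sqrt_encl qU_encl)
open scoped Topology

/-- regular part of `l1` -/
noncomputable def lam1 (T : ℝ) : ℝ := Real.log ((qD (-8 / 9) T + y1 T) / 2)

/-- regular part of `L0` -/
noncomputable def lam0 (T : ℝ) : ℝ := Real.log ((qD (-82 / 81) (T ^ 2) + y12 T) / 2)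

/-- regular part of `L13` -/
noncomputable def lam3 (T : ℝ) : ℝ := Real.log ((qD (10 / 9) T + b13 T) / 2)

lemma lam1_eq (T : ℝ) : lam1 T = qU (-8 / 9) (-1 / 9) T := rfl
lemma lam0_eq (T : ℝ) : lam0 T = qU (-82 / 81) (1 / 81) (T ^ 2) := rfl
lemma lam3_eq (T : ℝ) : lam3 T = qU (10 / 9) (1 / 9) T := rfl

/-- `f1 = y1 (lam1 + log (18 / 5) - log T)` -/
lemma f1_left {T : ℝ} (h0 : 0 < T) (h1 : T < 1) :
    f1 T = y1 T * (lam1 T + Real.log (18 / 5) - Real.log T) := by
  unfold f1 l1
  rw [qL_eq_qU (by norm_num) h0 (qR_1_pos h0 h1) (qD_1_pos h1.le), lam1_eq]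
  have e : (2 : ℝ) / (5 / 9) = 18 / 5 := by norm_num
  rw [e]
  ring

/-- `f2 = y12 (lam0 + log (81 / 20) - 2 log T)` -/
lemma f2_left {T : ℝ} (h0 : 0 < T) (h1 : T < 1) :
    f2 T = y12 T * (lam0 T + Real.log (81 / 20) - 2 * Real.log T) := by
  unfold f2 L0
  rw [qL_eq_qU (by norm_num) (by positivity) (qR_12_pos h0 h1) (qD_12_pos h0 h1.le), lam0_eq,
    Real.log_pow]
  have e : (2 : ℝ) / (40 / 81) = 81 / 20 := by norm_num
  rw [e]
  push_cast
  ring

/-- `f3 = b13 (lam3 + log (9 / 2) - log T)` -/
lemma f3_left {T : ℝ} (h0 : 0 < T) (h1 : T ≤ 1) :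
    f3 T = b13 T * (lam3 T + Real.log (9 / 2) - Real.log T) := by
  have h3 : 0 < qR (10 / 9) (1 / 9) T := by
    first
      | exact qR_3_pos h0 h1
      | exact qR_3_pos h0
  unfold f3 L13
  rw [qL_eq_qU (by norm_num) h0 h3 (qD_3_pos h0), lam3_eq]
  have e : (2 : ℝ) / (4 / 9) = 9 / 2 := by norm_num
  rw [e]
  ring

/-- Taylor coefficients at `0` (times `dY1`) -/
def cY1 : List ℤ :=
  [1548910700292123498194141184, -688404755685388221419618304, -239029429057426465770700800,
  -106235301803300651453644800, -65659318475651097078988800, -45576256020551822691532800,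
  -34031910595681831632076800, -26662049052257267977420800, -21619251440219265180364800,
  -17989226922551845909708800, -15273357675722893090252800, -13178676754902572142796800,
  -11522861726790019424140800, -10187094413792371867084800, -9090959685507360320428800,
  -8178287251854099088972800, -7408776368935216517266800, -6752838505058328335860800,
  -6188310667911898691929800, -5698297716892392223648800, -5269718574747646260349050,
  -4892304002987808871111800, -4557891461667706736408925, -4259919862157496309587300]

/-- common denominator -/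
def dY1 : ℤ := 1548910700292123498194141184

/-- remainder constant -/
def eY1 : ℤ := 7744553501460617490970705

/-- Taylor coefficients at `0` (times `dY12`) -/
def cY12 : List ℤ :=
  [984770902183611232881, 0, -498464283821334080841, 0, -120075708237599296800, 0,
  -60779062194340384800, 0, -38085284079019072800, 0, -26688687422937760800, 0,
  -20028538697174848800, 0, -15742709352264736800, 0, -12794323134677824800, 0,
  -10663995160100512800, 0, -9065733783515200800, 0, -7830409266080288800, 0]

/-- common denominator -/
def dY12 : ℤ := 984770902183611232881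

/-- remainder constant -/
def eY12 : ℤ := 7878167217468889863

/-- Taylor coefficients at `0` (times `dB13`) -/
def cB13 : List ℤ :=
  [2954312706550833698643, 1641284836972685388135, -291783971017366291224, 162102206120759050680,
  -104465866166711388216, 74046686746519566360, -55901913057282339288, 44101880494673815800,
  -35932120373158143480, 30003675864429850200, -25542084509604780696, 22085541631282983480,
  -19343547321280279992, 17125235261832498840, -15300598311071264088, 13778355176686153080,
  -12492734184552540024, 11395273373412010200, -10449562307683293720, 9627772104502831800,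
  -8908307111680043832, 8274179835431521560, -7711863793644146904, 7210469173550053880]

/-- common denominator -/
def dB13 : ℤ := 2954312706550833698643

/-- remainder constant -/
def eB13 : ℤ := 8862938119652501095

/-- Taylor coefficients at `0` (times `dLa1`) -/
def cLa1 : List ℤ :=
  [0, -5688081209907484273359189694218240, -2251532145588379191538012587294720,
  -1252314175843828842077023245434880, -824330441975082624192347417640960,
  -594361572242390417727210253713408, -454463440533418346863682728919040,
  -361957915223805525517653784657920, -297065605722919950148766083630080,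
  -249483309692457561467650701557760, -213372563824101342727315819874304,
  -185203353062044360351729891491840, -162728993302037068191323603685120,
  -144458668354131714264310762721280, -129368306873196547315724939362560,
  -116733633581492920907082400167936, -106029471746939282909494575337890,
  -96866711414492143991754063496320, -88951573896316456670698626753480,
  -82058543106377850610100918775360, -76011933344401160386032792666627,
  -70673063177137664222228750083440, -65931156152541260452898075808395,
  -61696772432661414044139059596680]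

/-- common denominator -/
def dLa1 : ℤ := 12798182722291839615058176811991040

/-- remainder constant -/
def eLa1 : ℤ := 102385461778334716920465414495928

/-- Taylor coefficients at `0` (times `dLa0x`) -/
def cLa0x : List ℤ :=
  [0, -511756664723236322996760, -191157525621552140523180, -106105723148682997213320,
  -69606545121363231294390, -50106662677208856011832, -38271053989944686447460,
  -30457956860550980493480, -24983433645272819095995, -20972714589521473002840,
  -17930974662305605462716, -15559447763431724361160]

/-- common denominator -/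
def dLa0x : ℤ := 1011031459575174199091160

/-- remainder constant -/
def eLa0x : ℤ := 20220629191503483981823

/-- Taylor coefficients at `0` (times `dLa3`) -/
def cLa3 : List ℤ :=
  [0, 108491539190435109584029954800, -39780231036492873514144316760,
  21876894733873746377026616400, -14294392783595737003492561260, 10268746507736656462685962800,
  -7833387141838474651755520200, 6228931043276429524499034000, -5106226628060606883660175350,
  4284518475525010462986246000, -3661794421503911389144119672, 3176563342315753918211720400,
  -2789780279061727201953682980, 2475584521635050154981313200, -2216238725587235588711695080,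
  1999213940742967465125008400, -1815435017297777726903727675, 1658184198342107269279446000,
  -1522393575227288609186741400, 1404175512715969912032114000, -1300503242190259949926976892,
  1208988812836482042864298800, -1127725695187513141543383560, 1055175248823300849997152400]

/-- common denominator -/
def dLa3 : ℤ := 195284770542783197251253918640

/-- remainder constant -/
def eLa3 : ℤ := 1562278164342265578010031349

set_option maxRecDepth 20000 in
theorem ap_y1 : Ap SL wL y1 dY1 cY1 eY1 := by
  intro T hT
  have hA : ((0 : ℤ) : ℝ) ≤ (4 : ℤ) * T := by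
    push_cast
    linarith [hT.1]
  have hB : ((4 : ℤ) : ℝ) * T ≤ (1 : ℤ) := by
    push_cast
    linarith [hT.2]
  have h := sqrt_encl (y := y1 T) (R := qR (-8 / 9) (-1 / 9) T) (RL := [9, -8, -1]) (dR := 9) (by norm_num)
    (T := T) (by unfold qR evq; simp only [ev_cons, ev_nil]; push_cast; ring) rfl
    (PL := cY1 ++ [-eY1]) (QL := cY1 ++ [eY1]) (dP := dY1) (A := 0) (B := 1) (d := 4)
    (by decide +kernel) hA hB (by decide +kernel) (by decide +kernel) (by decide +kernel)
  exact ap_of_evq (by decide +kernel) h.1 h.2 rfl

set_option maxRecDepth 20000 in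
theorem ap_y12 : Ap SL wL y12 dY12 cY12 eY12 := by
  intro T hT
  have hA : ((0 : ℤ) : ℝ) ≤ (4 : ℤ) * T := by
    push_cast
    linarith [hT.1]
  have hB : ((4 : ℤ) : ℝ) * T ≤ (1 : ℤ) := by
    push_cast
    linarith [hT.2]
  have h := sqrt_encl (y := y12 T) (R := qR (-82 / 81) (1 / 81) (T ^ 2)) (RL := [81, 0, -82, 0, 1]) (dR := 81) (by norm_num)
    (T := T) (by unfold qR evq; simp only [ev_cons, ev_nil]; push_cast; ring) rfl
    (PL := cY12 ++ [-eY12]) (QL := cY12 ++ [eY12]) (dP := dY12) (A := 0) (B := 1) (d := 4)
    (by decide +kernel) hA hB (by decide +kernel) (by decide +kernel) (by decide +kernel)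
  exact ap_of_evq (by decide +kernel) h.1 h.2 rfl

set_option maxRecDepth 20000 in
theorem ap_b13 : Ap SL wL b13 dB13 cB13 eB13 := by
  intro T hT
  have hA : ((0 : ℤ) : ℝ) ≤ (4 : ℤ) * T := by
    push_cast
    linarith [hT.1]
  have hB : ((4 : ℤ) : ℝ) * T ≤ (1 : ℤ) := by
    push_cast
    linarith [hT.2]
  have h := sqrt_encl (y := b13 T) (R := qR (10 / 9) (1 / 9) T) (RL := [9, 10, 1]) (dR := 9) (by norm_num)
    (T := T) (by unfold qR evq; simp only [ev_cons, ev_nil]; push_cast; ring) rfl
    (PL := cB13 ++ [-eB13]) (QL := cB13 ++ [eB13]) (dP := dB13) (A := 0) (B := 1) (d := 4)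
    (by decide +kernel) hA hB (by decide +kernel) (by decide +kernel) (by decide +kernel)
  exact ap_of_evq (by decide +kernel) h.1 h.2 rfl

set_option maxRecDepth 20000 in
theorem ap_lam1 : Ap SL wL lam1 dLa1 cLa1 eLa1 := by
  intro T hT
  rw [lam1_eq]
  have h := qU_encl (b := -8 / 9) (c := -1 / 9) (RL := [9, -8, -1]) (dR := 9) (by norm_num)
    (fun T => by unfold qR evq; simp only [ev_cons, ev_nil]; push_cast; ring) (e := 1 / 4)
    (fun x hx => by rw [qR_1]; exact mul_pos (by linarith [hx.2]) (by linarith [hx.1, hx.2])) (fun x hx => by unfold qD; linarith [hx.2])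
    (VL := cLa1 ++ [eLa1]) (WL := cLa1 ++ [-eLa1]) (dV := dLa1) (B := 1) (d := 4)
    (by decide +kernel) (by norm_num) (by norm_num) (by decide +kernel) (by decide +kernel)
    (by decide +kernel) (by decide +kernel) (by decide +kernel) (T := T) ⟨hT.1.le, hT.2⟩
  exact ap_of_evq (by decide +kernel) h.1 h.2 rfl

set_option maxRecDepth 20000 in
theorem ap_lam3 : Ap SL wL lam3 dLa3 cLa3 eLa3 := by
  intro T hT
  rw [lam3_eq]
  have h := qU_encl (b := 10 / 9) (c := 1 / 9) (RL := [9, 10, 1]) (dR := 9) (by norm_num)
    (fun T => by unfold qR evq; simp only [ev_cons, ev_nil]; push_cast; ring) (e := 1 / 4)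
    (fun x hx => by rw [qR_3]; exact mul_pos (by linarith [hx.1]) (by linarith [hx.1, hx.2])) (fun x hx => by unfold qD; linarith [hx.1])
    (VL := cLa3 ++ [eLa3]) (WL := cLa3 ++ [-eLa3]) (dV := dLa3) (B := 1) (d := 4)
    (by decide +kernel) (by norm_num) (by norm_num) (by decide +kernel) (by decide +kernel)
    (by decide +kernel) (by decide +kernel) (by decide +kernel) (T := T) ⟨hT.1.le, hT.2⟩
  exact ap_of_evq (by decide +kernel) h.1 h.2 rfl

/-- Taylor coefficients at `0` (times `dLa0`) -/
def cLa0 : List ℤ := sqL cLa0x

/-- common denominator -/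
def dLa0 : ℤ := dLa0x

/-- remainder constant -/
def eLa0 : ℤ := eLa0x

set_option maxRecDepth 20000 in
theorem ap_lam0 : Ap SL wL lam0 dLa0 cLa0 eLa0 := by
  intro T hT
  rw [lam0_eq]
  have hT2 : T ^ 2 ∈ Icc (0 : ℝ) (1 / 16) := by
    refine ⟨sq_nonneg T, ?_⟩
    have h1 := hT.1
    have h2 := hT.2
    nlinarith
  have h := qU_encl (b := -82 / 81) (c := 1 / 81) (RL := [81, -82, 1]) (dR := 81) (by norm_num)
    (fun T => by unfold qR evq; simp only [ev_cons, ev_nil]; push_cast; ring) (e := 1 / 16)
    (fun x hx => by unfold qR; nlinarith [hx.1, hx.2]) (fun x hx => by unfold qD; linarith [hx.2])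
    (VL := cLa0x ++ [eLa0x]) (WL := cLa0x ++ [-eLa0x]) (dV := dLa0x) (B := 1) (d := 16)
    (by decide +kernel) (by norm_num) (by norm_num) (by decide +kernel) (by decide +kernel)
    (by decide +kernel) (by decide +kernel) (by decide +kernel) (T := T ^ 2) hT2
  have h3 := ap_of_evq (l := cLa0x) (E := eLa0x) (D := dLa0x) (w := (T ^ 2) ^ 12)
    (by decide +kernel) h.1 h.2 rfl
  unfold cLa0 dLa0 eLa0 SP.wL
  rw [ev_sqL]
  rw [← pow_mul] at h3
  exact h3

end Vale.Agent.P224.S9
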