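import Vale.Agent.P224.SP.Right5
import Vale.Agent.P224.S9.Fun9

/-!
Models of the scalar functions on `(1/4, 1)`, `m = 9`.
-/

namespace Vale.Agent.P224.S9

open Set Real Vale.Agent.P224.SP

/-- model of `f1` near `1` -/
@[irreducible] def rq1 : List ℤ :=
  [6211889427405229851029833884776633, -73880296757416277223172132710800018,
  1374001048780755288033348984014067105, -21752316280710348514821734520201100085,
  280937907933195186684704668525268566826, -2995071423429978767063951661849341056446,
  26801514138923858426354598358877037837601, -204340883960248792215092377428992221624150,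
  1343942137948229310323940000163901719409321, -7702703551592344117145229331197250841888525,
  38793054206622251188550623158906215748160155, -172855746117287015229290020023086228571167585,
  685310024300344397579206642802599928043925952, -2428823193754688090299820445356848646074184700,
  7724880145085676978727937324317669540825447101,
  -22118707642392626416353281863933925213455906889,
  57164956117672238712677858986946723726762978236,
  -133631286627517064254917711922526015260093014433,
  283008826128285352270055240905353220673176591676,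
  -543659771365645477355594735781890687454183455101,
  948068876647720508545099119125811622973639737018,
  -1501494365138651007982281953117731899474342528904,
  2159748076784151135003155146354916875985761920543,
  -2820594235474543545799450425163365032479162279522,
  3342198715649297509849980652481492557702315260617,
  -3589207593041757825570596619443057009921506872346,
  3487954189233230411110974356403730598469754433676,
  -3061055291603008000942528723258315128261541797281,
  2419838317379061057441279265559993199791264203913,
  -1717635082569566546532593981608074854335973777286,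
  1090432492056798337562650775101233828689876088446,
  -616165531228362487277285047117751134154932742131,
  308075576339969146320312818530979093788650747357,
  -135302492875736628197656179275674910237906873973,
  51723320602186108220261122846613882740029650452,
  -17013389338227099508006744782008797416049387612,
  4744022910132830343041588593973106697232922225,
  -1099381015814912100710144636824024563553642520, 206012116607884056823058097292215477588611185,
  -29989414492513839546740163545953384148622844, 3181610677051306722442609672657966648462406,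
  -218809271490851160699583469252555744760785, 7320841753739466752675777423843313684692]

/-- denominator -/
@[irreducible] def rD1 : ℤ := 1001000000000000000000000000000000

/-- error -/
@[irreducible] def rE1 : ℤ := 10010000000000000001

/-- model of `f2` near `1` -/
@[irreducible] def rq2 : List ℤ :=
  [11247649749165474879005830571846828, -151461554653498343646677324857479659,
  2781702561555451668088211014318213770, -43900503170512169466541516644726956265,
  566386148505170964392567819321590472885, -6035104764667700126785929921206016536108,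
  53988834618916591912990647018093428183992, -411539823407319765943232230859676016445578,
  2706291807634702353199841713946707169883480, -15509240583555217987763870847250889512360739,
  78102538432370389139937612642665578218040500, -347989530148123110292626588540522997556581032,
  1379577047638020978005401933953914690583769124,
  -4889171756705955337514558294602062698365417658,
  15549439203819303533328513384391170799647398322,
  -44521391209430080154597958799418425280511515048,
  115060637484446819706964730086565050676729979661,
  -268964236352574261780382532548316300930027677478,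
  569609385628450983629463363210928065873645248842,
  -1094198699094844467375746656124192318163887525713,
  1908102163380460591445598766664603266121889527502,
  -3021892022086682216444802491615986802085398662580,
  4346628121252732186053551301468667144954941796796,
  -5676553304165804281923168626707610119179133075064,
  6726227923893206151358413251834036317706577996784,
  -7223264555506003570360457189186939300569663186071,
  7019427976132856067479796588906929101620338969660,
  -6160251757073491592812153158383950925577518761764,
  4869790369293141074808358795480808444749275706525,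
  -3456620571585427739714878066343175625449041085110,
  2194404659816344844704426063288259066108934119672,
  -1239974251594225879393806602690375731711456740407,
  619969121861218363812505680342398116400277096912,
  -272280338367880922456337861255757699920294773101,
  104086577760606092542504314480203330151191642696,
  -34237114879828931141406802295261967633312221008,
  9546654674880063210801153212049759602151829180,
  -2212335061161935619168161956202963483486772956, 414566087772305851253072394628379911270109806,
  -60348632601372256034899832320889802636614385, 6402432545529353289981760788032321228110223,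
  -440313811423246099648726730576971445037300, 14731816350889645732618830629960885481864]

/-- denominator -/
@[irreducible] def rD2 : ℤ := 1001000000000000000000000000000000

/-- error -/
@[irreducible] def rE2 : ℤ := 10010000000000000001

/-- model of `f3` near `1` -/
@[irreducible] def rq3 : List ℤ :=
  [31538696429879041013791570585509, -512327676278233625473241580705248,
  9569693651748781327353821677388641, -151707277235080277541947961410929321,
  1960102565546213552380073279871473865, -20900258390296085365235483031895807635,
  187045519518023296857092320250239858929, -1426170619452634698462671935126560148281,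
  9380297323893888716452079090830878717089, -53764286353009683921400846192822082932632,
  270779613892128397816767492294865282118780, -1206576225518817269585092534686009649688175,
  4783714944057739894410234916696410034076910, -16954310005008647179367671559756232016870726,
  53923865702812309273638596736937898576372221, -154402140412374708445008354521612984105165071,
  399049843200486594031658304774083700166079210, -932843174173532253356071938445231079070248300,
  1975619432367137161524119039771385414262764924,
  -3795185420000942194872159840917390888675373445,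
  6618322186868346487965099696147358458760570771,
  -10481747715985580599779191266482980250734948678,
  15076997807050973196763546623842752832909174975,
  -19690375445275309257761088575791710933902281811,
  23331738965935786917117861770740054228739347075,
  -25056173413725362007980651234000872015223888660,
  24349393796478163749553642526432476661655284187,
  -21369269067396263352865005867010639611781536834,
  16892964329219697123750483009258906047470716992,
  -11990888386705866676049347702544456389670301890,
  7612373946301249889857360293338884748643640901,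
  -4301496146633578411067419614437972636697378067,
  2150701601231048312853179052353677927894218341, -944559642378320046055086019741721679958742566,
  361085989496834825011651783713228573435742752, -118772442816878932121714824701833276653965411,
  33118617243450706642479477841367740205836710, -7674925812717157221354936974384086441718375,
  1438199784102644526013838663503351541657084, -209360580659199641865315396363379560684456,
  22211321976248887648244455482685539426656, -1527543238362991508776722454196762149378,
  51108037836325475989306154315080412438]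

/-- denominator -/
@[irreducible] def rD3 : ℤ := 7000000000000000000000000000000

/-- error -/
@[irreducible] def rE3 : ℤ := 70000000000000001

/-- model of `f4` near `1` -/
@[irreducible] def rq4 : List ℤ :=
  [6708203932692051714146136086327, 3726779955776155717236977895513,
  -662538549649436082870369361751, 368075898714236146246262469805,
  -237196986367619718972668791100, 168089360993806622463641656266,
  -126744580757504351896678341064, 99497456724384128471119549548, -79802389698502626318900902427,
  63996756973134302718598146984, -49952574881339725266501329136, 36788504901023674148624823645,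
  -24749581846374649826652227310, 14739687716581179441285918714, -7539573291341045027216344056,
  3211944861095182497837669390, -1100539721312807922396856854, 289955064128459112728728803,
  -54940442080823054025754977, 6647278990689999303174612, -385040075985327106210932]

/-- denominator -/
@[irreducible] def rD4 : ℤ := 9000000000000000000000000000000

/-- error -/
@[irreducible] def rE4 : ℤ := 9000000000000001

/-- `f3c = b13 (L13 - L13 1)` -/
noncomputable def f3c (T : ℝ) : ℝ := b13 T * (L13 T - L13 1)

/-- `f4 = sqrt (5/9) b13` -/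
noncomputable def f4 (T : ℝ) : ℝ := √(5 / 9) * b13 T

/-- radicands -/
def r1L : List ℤ := [9, -8, -1]
/-- radicand of `y1 y2` (times 81) -/
def r12L : List ℤ := [81, 0, -82, 0, 1]
/-- radicand of `b13` (times 9) -/
def r3L : List ℤ := [9, 10, 1]

lemma ev_r1L (T : ℝ) : ev r1L T = (1 - T) * (9 + T) := by
  simp only [r1L, ev_cons, ev_nil]; push_cast; ring
lemma ev_r12L (T : ℝ) : ev r12L T = (1 - T ^ 2) * (81 - T ^ 2) := by
  simp only [r12L, ev_cons, ev_nil]; push_cast; ring
lemma ev_r3L (T : ℝ) : ev r3L T = (1 + T) * (9 + T) := by
  simp only [r3L, ev_cons, ev_nil]; push_cast; ring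

lemma y1_one : y1 1 = 0 := by unfold y1; rw [qR_1]; norm_num
lemma y12_one : y12 1 = 0 := by unfold y12; rw [qR_12]; norm_num

lemma continuous_y1 : Continuous y1 := (continuous_qR _ _).sqrt
lemma continuous_b13 : Continuous b13 := (continuous_qR _ _).sqrt
lemma continuous_y12 : Continuous y12 := ((continuous_qR _ _).comp (continuous_pow 2)).sqrt

lemma continuousOn_l1 : ContinuousOn l1 (Ioc 0 1) :=
  continuousOn_qL (by norm_num) (fun _ hT => hT.1) fun _ hT => qD_1_pos hT.2

lemma continuousOn_L13 : ContinuousOn L13 (Ioi 0) :=
  continuousOn_qL (by norm_num) (fun _ hT => hT) fun _ hT => qD_3_pos hT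

lemma continuousOn_L0 : ContinuousOn L0 (Ioc 0 1) := by
  have h : ContinuousOn (qL (-82 / 81) (1 / 81) (40 / 81)) (Ioc 0 1) := by
    refine continuousOn_qL (by norm_num) (fun _ hT => hT.1) fun T hT => ?_
    unfold qD; linarith [hT.2]
  refine h.comp (continuous_pow 2).continuousOn fun T hT => ?_
  exact ⟨pow_pos hT.1 2, pow_le_one₀ hT.1.le hT.2⟩

lemma c1u : chkN 4 1 4 4 (smulL (-1) (cL r1L (upL rq1 rE1 7) (2 * 1 * 9 * rD1))) = true := by
  decide +kernel

lemma c1l : chkN 4 1 4 4 (cL r1L (loL rq1 rE1 7) (2 * 1 * 9 * rD1)) = true := by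
  decide +kernel

lemma c2u : chkN 4 1 4 4 (smulL (-1) (cL r12L (upL rq2 rE2 7) (2 * 2 * 81 * rD2))) = true := by
  decide +kernel

lemma c2l : chkN 4 1 4 4 (cL r12L (loL rq2 rE2 7) (2 * 2 * 81 * rD2)) = true := by
  decide +kernel

lemma c3u : chkN 4 1 4 4 (smulL (-1) (cG r3L (upL rq3 rE3 8) (2 * 1 * rD3))) = true := by
  decide +kernel

lemma c3l : chkN 4 1 4 4 (cG r3L (loL rq3 rE3 8) (2 * 1 * rD3)) = true := by
  decide +kernel

lemma c4a : chkN 1 1 4 4 (addL (smulL 81 (mulL (upL rq4 rE4 8) (upL rq4 rE4 8)))
      (smulL (-5 * (rD4 * rD4)) r3L)) = true := by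
  decide +kernel

lemma c4b : chkN 1 1 4 4 (addL (smulL (-81) (mulL (loL rq4 rE4 8) (loL rq4 rE4 8)))
      (smulL (5 * (rD4 * rD4)) r3L)) = true := by
  decide +kernel

lemma c4c : chkN 1 1 4 4 (upL rq4 rE4 8) = true := by
  decide +kernel

lemma ap_f1 : Ap SR wR f1 (9 * rD1) (mulL r1L rq1) (10 * rE1) := by
  intro T hT
  have hT0 : (0 : ℝ) < T := by linarith [hT.1]
  have hy := y1_pos hT0 hT.2
  have hk : (9 : ℝ) ≠ 0 := by norm_num
  have hyd : ∀ T ∈ Ioo (1 / 4 : ℝ) 1,
      HasDerivAt y1 (ev (derL r1L) T / (2 * ((9 : ℤ) : ℝ) * y1 T)) T := by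
    intro x hx
    have hx0 : (0 : ℝ) < x := by linarith [hx.1]
    refine (hasDerivAt_y1 hx0 hx.2).congr_deriv ?_
    have := (y1_pos hx0 hx.2).ne'
    simp only [r1L, derL, derAux, ev_cons, ev_nil]
    push_cast
    field_simp
    ring
  have hL : ∀ T ∈ Ioo (1 / 4 : ℝ) 1, HasDerivAt l1 (-((1 : ℤ) : ℝ) / (T * y1 T)) T := by
    intro x hx
    have hx0 : (0 : ℝ) < x := by linarith [hx.1]
    simpa using hasDerivAt_l1 hx0 hx.2
  have hy2 : ∀ T ∈ Ioo (1 / 4 : ℝ) 1, (((9 : ℤ) : ℝ)) * y1 T ^ 2 = ev r1L T := by
    intro x hx
    have hx0 : (0 : ℝ) < x := by linarith [hx.1]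
    rw [y1_sq hx0 hx.2, ev_r1L]; push_cast; ring
  have hyc : ContinuousOn y1 (Ioc (1 / 4) 1) := continuous_y1.continuousOn
  have hLc : ContinuousOn l1 (Ioc (1 / 4) 1) :=
    continuousOn_l1.mono (Ioc_subset_Ioc_left (by norm_num))
  have hyp : ∀ T ∈ Ioo (1 / 4 : ℝ) 1, 0 < y1 T := fun x hx =>
    y1_pos (by linarith [hx.1]) hx.2
  have hTc : T ∈ Ioc (1 / 4 : ℝ) 1 := ⟨hT.1, hT.2.le⟩
  have hu : (rD1 : ℝ) * l1 T ≤ y1 T * ev (upL rq1 rE1 7) T := by
    refine le_of_cL (k0 := 9) (n := 1) (a := 1 / 4) (by norm_num) (by norm_num) hyp hy2 hyd hL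
      hyc hLc y1_one l1_one (fun x hx => ?_) hTc
    have h1 := c1u
    have h2 := chk_of_mem h1 (by norm_num) hx
    rw [ev_smulL] at h2; push_cast at h2 ⊢; linarith
  have hl : y1 T * ev (loL rq1 rE1 7) T ≤ (rD1 : ℝ) * l1 T := by
    refine ge_of_cL (k0 := 9) (n := 1) (a := 1 / 4) (by norm_num) (by norm_num) hyp hy2 hyd hL
      hyc hLc y1_one l1_one (fun x hx => ?_) hTc
    have h1 := c1l
    exact chk_of_mem h1 (by norm_num) hx
  rw [ev_upL] at hu
  rw [ev_loL] at hl
  have hq := hy2 T hT
  rw [ev_mulL, ← hq]
  unfold f1 wR
  push_cast at hq ⊢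
  rw [ev_r1L] at hq
  have hE : (0 : ℝ) ≤ rE1 := by
    have : (0 : ℤ) ≤ rE1 := by decide +kernel
    exact_mod_cast this
  have h1T : 0 < 1 - T := by linarith [hT.2]
  have hw : 0 ≤ (rE1 : ℝ) * (1 - T) ^ 7 := mul_nonneg hE (pow_nonneg h1T.le 7)
  have hb : 9 * y1 T ^ 2 * ((rE1 : ℝ) * (1 - T) ^ 7) ≤ 10 * rE1 * (1 - T) ^ 8 := by
    have e1 : 10 * (rE1 : ℝ) * (1 - T) ^ 8 = (10 * (1 - T)) * (rE1 * (1 - T) ^ 7) := by ring
    rw [e1, hq]
    refine mul_le_mul_of_nonneg_right ?_ hw
    nlinarith [hT.2]
  rw [abs_le]
  constructor
  · nlinarith [mul_le_mul_of_nonneg_left hl (mul_nonneg (by norm_num : (0 : ℝ) ≤ 9) hy.le)]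
  · nlinarith [mul_le_mul_of_nonneg_left hu (mul_nonneg (by norm_num : (0 : ℝ) ≤ 9) hy.le)]

lemma ap_f2 : Ap SR wR f2 (81 * rD2) (mulL r12L rq2) (162 * rE2) := by
  intro T hT
  have hT0 : (0 : ℝ) < T := by linarith [hT.1]
  have hy := y12_pos hT0 hT.2
  have hyd : ∀ T ∈ Ioo (1 / 4 : ℝ) 1,
      HasDerivAt y12 (ev (derL r12L) T / (2 * ((81 : ℤ) : ℝ) * y12 T)) T := by
    intro x hx
    have hx0 : (0 : ℝ) < x := by linarith [hx.1]
    refine (hasDerivAt_y12 hx0 hx.2).congr_deriv ?_
    have := (y12_pos hx0 hx.2).ne'
    simp only [r12L, derL, derAux, ev_cons, ev_nil]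
    push_cast
    field_simp
    ring
  have hL : ∀ T ∈ Ioo (1 / 4 : ℝ) 1, HasDerivAt L0 (-((2 : ℤ) : ℝ) / (T * y12 T)) T := by
    intro x hx
    have hx0 : (0 : ℝ) < x := by linarith [hx.1]
    have := hasDerivAt_L0 hx0 hx.2
    push_cast
    exact this
  have hy2 : ∀ T ∈ Ioo (1 / 4 : ℝ) 1, (((81 : ℤ) : ℝ)) * y12 T ^ 2 = ev r12L T := by
    intro x hx
    have hx0 : (0 : ℝ) < x := by linarith [hx.1]
    rw [y12_sq hx0 hx.2, ev_r12L]; push_cast; ring
  have hyc : ContinuousOn y12 (Ioc (1 / 4) 1) := continuous_y12.continuousOn
  have hLc : ContinuousOn L0 (Ioc (1 / 4) 1) :=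
    continuousOn_L0.mono (Ioc_subset_Ioc_left (by norm_num))
  have hyp : ∀ T ∈ Ioo (1 / 4 : ℝ) 1, 0 < y12 T := fun x hx =>
    y12_pos (by linarith [hx.1]) hx.2
  have hTc : T ∈ Ioc (1 / 4 : ℝ) 1 := ⟨hT.1, hT.2.le⟩
  have hu : (rD2 : ℝ) * L0 T ≤ y12 T * ev (upL rq2 rE2 7) T := by
    refine le_of_cL (k0 := 81) (n := 2) (a := 1 / 4) (by norm_num) (by norm_num) hyp hy2 hyd hL
      hyc hLc y12_one L0_one (fun x hx => ?_) hTc
    have h1 := c2u
    have h2 := chk_of_mem h1 (by norm_num) hx
    rw [ev_smulL] at h2; push_cast at h2 ⊢; linarith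
  have hl : y12 T * ev (loL rq2 rE2 7) T ≤ (rD2 : ℝ) * L0 T := by
    refine ge_of_cL (k0 := 81) (n := 2) (a := 1 / 4) (by norm_num) (by norm_num) hyp hy2 hyd hL
      hyc hLc y12_one L0_one (fun x hx => ?_) hTc
    have h1 := c2l
    exact chk_of_mem h1 (by norm_num) hx
  rw [ev_upL] at hu
  rw [ev_loL] at hl
  have hq := hy2 T hT
  rw [ev_mulL, ← hq]
  unfold f2 wR
  push_cast at hq ⊢
  rw [ev_r12L] at hq
  have hE : (0 : ℝ) ≤ rE2 := by
    have : (0 : ℤ) ≤ rE2 := by decide +kernel
    exact_mod_cast this
  have h1T : 0 < 1 - T := by linarith [hT.2]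
  have hw : 0 ≤ (rE2 : ℝ) * (1 - T) ^ 7 := mul_nonneg hE (pow_nonneg h1T.le 7)
  have hb : 81 * y12 T ^ 2 * ((rE2 : ℝ) * (1 - T) ^ 7) ≤ 162 * rE2 * (1 - T) ^ 8 := by
    have e1 : 162 * (rE2 : ℝ) * (1 - T) ^ 8 = (162 * (1 - T)) * (rE2 * (1 - T) ^ 7) := by ring
    rw [e1, hq]
    refine mul_le_mul_of_nonneg_right ?_ hw
    have e2 : (1 - T ^ 2) * (81 - T ^ 2) = (1 - T) * ((1 + T) * (81 - T ^ 2)) := by ring
    rw [e2, mul_comm (162 : ℝ)]
    refine mul_le_mul_of_nonneg_left ?_ h1T.le
    nlinarith [hT.2, hT0]
  rw [abs_le]
  constructor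
  · nlinarith [mul_le_mul_of_nonneg_left hl (mul_nonneg (by norm_num : (0 : ℝ) ≤ 81) hy.le)]
  · nlinarith [mul_le_mul_of_nonneg_left hu (mul_nonneg (by norm_num : (0 : ℝ) ≤ 81) hy.le)]

lemma ap_f3 : Ap SR wR f3c rD3 rq3 rE3 := by
  intro T hT
  have hT0 : (0 : ℝ) < T := by linarith [hT.1]
  have hyd : ∀ T ∈ Ioo (1 / 4 : ℝ) 1,
      HasDerivAt b13 (ev (derL r3L) T / (2 * ((9 : ℤ) : ℝ) * b13 T)) T := by
    intro x hx
    have hx0 : (0 : ℝ) < x := by linarith [hx.1]
    refine (hasDerivAt_b13 hx0 hx.2.le).congr_deriv ?_
    have := (b13_pos hx0 hx.2.le).ne'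
    simp only [r3L, derL, derAux, ev_cons, ev_nil]
    push_cast
    field_simp
    ring
  have hL : ∀ T ∈ Ioo (1 / 4 : ℝ) 1,
      HasDerivAt (fun T => L13 T - L13 1) (-((1 : ℤ) : ℝ) / (T * b13 T)) T := by
    intro x hx
    have hx0 : (0 : ℝ) < x := by linarith [hx.1]
    have := (hasDerivAt_L13 hx0 hx.2.le).sub_const (L13 1)
    push_cast
    exact this
  have hy2 : ∀ T ∈ Ioo (1 / 4 : ℝ) 1, (((9 : ℤ) : ℝ)) * b13 T ^ 2 = ev r3L T := by
    intro x hx
    have hx0 : (0 : ℝ) < x := by linarith [hx.1]
    rw [b13_sq hx0 hx.2.le, ev_r3L]; push_cast; ring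
  have hyc : ContinuousOn b13 (Ioc (1 / 4) 1) := continuous_b13.continuousOn
  have hLc : ContinuousOn (fun T => L13 T - L13 1) (Ioc (1 / 4) 1) :=
    (continuousOn_L13.mono fun x hx => (by linarith [hx.1] : (0 : ℝ) < x)).sub
      continuousOn_const
  have hyp : ∀ T ∈ Ioc (1 / 4 : ℝ) 1, 0 < b13 T := fun x hx =>
    b13_pos (by linarith [hx.1]) hx.2
  have hTc : T ∈ Ioc (1 / 4 : ℝ) 1 := ⟨hT.1, hT.2.le⟩
  have hz : ∀ E : ℤ, ev rq3 1 + E * (1 - 1) ^ 8 = 0 := by
    intro E
    have h1 : rq3.foldr (fun a s => a + s) 0 = 0 := by decide +kernel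
    have h2 : ∀ l : List ℤ, ev l 1 = ((l.foldr (fun a s => a + s) 0 : ℤ) : ℝ) := by
      intro l
      induction l with
      | nil => simp
      | cons a l ih => simp only [ev_cons, List.foldr_cons, ih]; push_cast; ring
    rw [h2, h1]; norm_num
  have hu : (rD3 : ℝ) * (b13 T * (L13 T - L13 1)) ≤ ev (upL rq3 rE3 8) T := by
    refine le_of_cG (L := fun T => L13 T - L13 1) (k0 := 9) (n := 1) (a := 1 / 4) (by norm_num)
      (by norm_num) hyp hy2 hyd hL hyc hLc (by simp) ?_ (fun x hx => ?_) hTc
    · rw [ev_upL, hz]
    have h1 := c3u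
    have h2 := chk_of_mem h1 (by norm_num) hx
    rw [ev_smulL] at h2; push_cast at h2 ⊢; linarith
  have hl : ev (loL rq3 rE3 8) T ≤ (rD3 : ℝ) * (b13 T * (L13 T - L13 1)) := by
    refine ge_of_cG (L := fun T => L13 T - L13 1) (k0 := 9) (n := 1) (a := 1 / 4) (by norm_num)
      (by norm_num) hyp hy2 hyd hL hyc hLc (by simp) ?_ (fun x hx => ?_) hTc
    · have := hz (-rE3)
      rw [ev_loL]
      push_cast at this
      linarith
    have h1 := c3l
    exact chk_of_mem h1 (by norm_num) hx
  rw [ev_upL] at hu
  rw [ev_loL] at hl
  unfold f3c wR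
  rw [abs_le]
  constructor <;> linarith

lemma ap_f4 : Ap SR wR f4 rD4 rq4 rE4 := by
  intro T hT
  have hT0 : (0 : ℝ) < T := by linarith [hT.1]
  have hD : (0 : ℝ) < rD4 := by
    have : (0 : ℤ) < rD4 := by decide +kernel
    exact_mod_cast this
  have hf : f4 T ^ 2 = 5 / 81 * ev r3L T := by
    unfold f4
    rw [mul_pow, Real.sq_sqrt (by norm_num), b13_sq hT0 hT.2.le, ev_r3L]; ring
  have hf0 : 0 ≤ f4 T := mul_nonneg (Real.sqrt_nonneg _) (Real.sqrt_nonneg _)
  have h1 := c4a
  have h2 := c4b
  have h3 := c4c
  have h1' := chk_of_mem h1 (by norm_num) hT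
  have h2' := chk_of_mem h2 (by norm_num) hT
  have h3' := chk_of_mem h3 (by norm_num) hT
  rw [ev_addL, ev_smulL, ev_smulL, ev_mulL] at h1' h2'
  push_cast at h1' h2'
  have hu : (rD4 : ℝ) * f4 T ≤ ev (upL rq4 rE4 8) T := by
    refine (pow_le_pow_iff_left₀ (mul_nonneg hD.le hf0) h3' two_ne_zero).1 ?_
    rw [mul_pow, hf, sq (ev (upL rq4 rE4 8) T)]
    linarith
  have hl : ev (loL rq4 rE4 8) T ≤ (rD4 : ℝ) * f4 T := by
    refine le_of_sq (mul_nonneg hD.le hf0) ?_
    rw [mul_pow, hf, sq (ev (loL rq4 rE4 8) T)]
    linarith
  rw [ev_upL] at hu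
  rw [ev_loL] at hl
  unfold wR
  rw [abs_le]
  constructor <;> linarith

end Vale.Agent.P224.S9
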