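import Vale.Agent.P224.S9.ColE

/-!
Weighted polynomial expressions: bounds of the error terms.
-/

namespace Vale.Agent.P224.S9

open Vale.Agent.P224.UE Vale.Agent.P224.POS Vale.Agent.P224.PO Vale.Agent.P224.SO Set
open scoped RealInnerProductSpace

noncomputable section

/-- weighted polynomial expressions: constants, `T`, `1 - T`, `1 - T s`, `1 - s`, `s`, `τ`, `u`, `v` -/
inductive WE where
  | c (n : Int) : WE
  | T : WE
  | a : WE
  | P : WE
  | w : WE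
  | s : WE
  | t : WE
  | u : WE
  | v : WE
  | add (x y : WE) : WE
  | sub (x y : WE) : WE
  | mul (x y : WE) : WE
  | pow (x : WE) (n : Nat) : WE

/-- the expression without weights -/
def WE.pe (e : WE) : PE :=
  WE.rec (motive := fun _ => PE) (fun n => .c n) (.v 4) (.sub (.c 1) (.v 4)) pP
    (.sub (.c 1) (.v 0)) (.v 0) (.v 1) (.v 2) (.v 3) (fun _ _ x y => .add x y)
    (fun _ _ x y => .sub x y) (fun _ _ x y => .mul x y) (fun _ n x => .pow x n) e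

/-- the bound of a sum -/
def wadd (x y : ℕ × ℕ) : ℕ × ℕ :=
  (min x.1 y.1, x.2 * 2 ^ ((x.1 - min x.1 y.1 + 1) / 2) + y.2 * 2 ^ ((y.1 - min x.1 y.1 + 1) / 2))

/-- the weight (in half units) and the bound -/
def WE.wb (e : WE) : ℕ × ℕ :=
  WE.rec (motive := fun _ => ℕ × ℕ) (fun n => (0, n.natAbs)) (0, 1) (2, 1) (2, 1) (2, 2) (0, 1)
    (1, 1) (1, 1) (0, 3) (fun _ _ x y => wadd x y) (fun _ _ x y => wadd x y)
    (fun _ _ x y => (x.1 + y.1, x.2 * y.2)) (fun _ n x => (n * x.1, x.2 ^ n)) e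

/-- the ranges of the variables -/
structure Rg (f : ℕ → ℝ) : Prop where
  T0 : 0 ≤ f 4
  T1 : f 4 ≤ 1
  TP : 1 - f 4 ≤ 1 - f 4 * f 0
  P0 : 0 < 1 - f 4 * f 0
  P2 : 1 - f 4 * f 0 ≤ 2
  s0 : 0 ≤ 1 - f 0
  sm : -1 ≤ f 0
  sP : 1 - f 0 ≤ 2 * (1 - f 4 * f 0)
  t1 : |f 1| ≤ 1
  t2 : f 1 ^ 2 ≤ 1 - f 4 * f 0
  u1 : |f 2| ≤ 1
  u2 : f 2 ^ 2 ≤ 1 - f 4 * f 0
  v3 : |f 3| ≤ 3

/-- the square root of `1 - T s` -/
def rho (f : ℕ → ℝ) : ℝ := √(1 - f 4 * f 0)

lemma Rg.rho0 {f : ℕ → ℝ} (h : Rg f) : 0 < rho f := Real.sqrt_pos.2 h.P0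

lemma Rg.rho2 {f : ℕ → ℝ} (h : Rg f) : rho f ^ 2 = 1 - f 4 * f 0 := Real.sq_sqrt h.P0.le

lemma Rg.rho_le {f : ℕ → ℝ} (h : Rg f) (k : ℕ) : rho f ^ k ≤ 2 ^ ((k + 1) / 2) := by
  have h2 : rho f ^ 2 ≤ 2 := by rw [h.rho2]; exact h.P2
  have h1 : rho f ≤ 2 := by
    by_contra hc
    have := h.rho0
    nlinarith [not_le.1 hc]
  obtain ⟨j, hj | hj⟩ := k.even_or_odd'
  · rw [hj, pow_mul]
    have e1 : (2 * j + 1) / 2 = j := by omega
    rw [e1]
    exact pow_le_pow_left₀ (sq_nonneg _) h2 _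
  · rw [hj, pow_succ, pow_mul]
    have e1 : (2 * j + 1 + 1) / 2 = j + 1 := by omega
    rw [e1, pow_succ]
    exact mul_le_mul (pow_le_pow_left₀ (sq_nonneg _) h2 _) h1 h.rho0.le (pow_nonneg (by norm_num) _)

lemma wadd_le {f : ℕ → ℝ} (h : Rg f) {a b : ℝ} {x y : ℕ × ℕ} (ha : |a| ≤ x.2 * rho f ^ x.1)
    (hb : |b| ≤ y.2 * rho f ^ y.1) : |a| + |b| ≤ (wadd x y).2 * rho f ^ (wadd x y).1 := by
  have key : ∀ z : ℕ × ℕ, min x.1 y.1 ≤ z.1 → (z.2 : ℝ) * rho f ^ z.1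
      ≤ z.2 * 2 ^ ((z.1 - min x.1 y.1 + 1) / 2) * rho f ^ (min x.1 y.1) := by
    intro z hz
    have e1 : rho f ^ z.1 = rho f ^ (z.1 - min x.1 y.1) * rho f ^ (min x.1 y.1) := by
      rw [← pow_add]
      congr 1
      omega
    rw [e1, mul_assoc]
    have h0 := h.rho0
    exact mul_le_mul_of_nonneg_left (mul_le_mul_of_nonneg_right (h.rho_le _) (by positivity))
      (Nat.cast_nonneg _)
  have k1 := ha.trans (key x (min_le_left _ _))
  have k2 := hb.trans (key y (min_le_right _ _))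
  refine (add_le_add k1 k2).trans (le_of_eq ?_)
  unfold wadd
  push_cast
  ring

/-- **The bound** of a weighted expression. -/
theorem WE.le {f : ℕ → ℝ} (h : Rg f) (e : WE) :
    |PE.ev f e.pe| ≤ e.wb.2 * rho f ^ e.wb.1 := by
  have h0 := h.rho0
  have h2 := h.rho2
  induction e with
  | c n =>
    have e1 : WE.wb (.c n) = (0, n.natAbs) := rfl
    have e2 : WE.pe (.c n) = .c n := rfl
    rw [e1, e2, PE.ev_c, pow_zero, mul_one, Nat.cast_natAbs]
    push_cast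
    exact le_rfl
  | T =>
    have e1 : WE.wb .T = (0, 1) := rfl
    have e2 : WE.pe .T = .v 4 := rfl
    rw [e1, e2, PE.ev_v, pow_zero, mul_one, abs_of_nonneg h.T0, Nat.cast_one]
    exact h.T1
  | a =>
    have e1 : WE.wb .a = (2, 1) := rfl
    have e2 : PE.ev f (WE.pe .a) = 1 - f 4 := by
      change PE.ev f (.sub (.c 1) (.v 4)) = _
      simp
    rw [e1, e2, Nat.cast_one, one_mul, h2, abs_of_nonneg (by linarith [h.T1])]
    exact h.TP
  | P =>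
    have e1 : WE.wb .P = (2, 1) := rfl
    have e2 : PE.ev f (WE.pe .P) = 1 - f 4 * f 0 := by
      change PE.ev f pP = _
      simp [pP]
    rw [e1, e2, Nat.cast_one, one_mul, h2, abs_of_pos h.P0]
  | w =>
    have e1 : WE.wb .w = (2, 2) := rfl
    have e2 : PE.ev f (WE.pe .w) = 1 - f 0 := by
      change PE.ev f (.sub (.c 1) (.v 0)) = _
      simp
    rw [e1, e2, h2, abs_of_nonneg h.s0, Nat.cast_ofNat]
    exact h.sP
  | s =>
    have e1 : WE.wb .s = (0, 1) := rfl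
    have e2 : PE.ev f (WE.pe .s) = f 0 := rfl
    rw [e1, e2, pow_zero, mul_one, Nat.cast_one, abs_le]
    exact ⟨h.sm, by linarith [h.s0]⟩
  | t =>
    have e1 : WE.wb .t = (1, 1) := rfl
    have e2 : PE.ev f (WE.pe .t) = f 1 := rfl
    rw [e1, e2, Nat.cast_one, one_mul, pow_one]
    exact abs_le_of_sq_le_sq (by rw [h2]; exact h.t2) h0.le
  | u =>
    have e1 : WE.wb .u = (1, 1) := rfl
    have e2 : PE.ev f (WE.pe .u) = f 2 := rfl
    rw [e1, e2, Nat.cast_one, one_mul, pow_one]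
    exact abs_le_of_sq_le_sq (by rw [h2]; exact h.u2) h0.le
  | v =>
    have e1 : WE.wb .v = (0, 3) := rfl
    have e2 : PE.ev f (WE.pe .v) = f 3 := rfl
    rw [e1, e2, pow_zero, mul_one, Nat.cast_ofNat]
    exact h.v3
  | add x y hx hy =>
    have e1 : WE.wb (.add x y) = wadd x.wb y.wb := rfl
    have e2 : WE.pe (.add x y) = .add x.pe y.pe := rfl
    rw [e1, e2, PE.ev_add]
    exact (abs_add_le _ _).trans (wadd_le h hx hy)
  | sub x y hx hy =>
    have e1 : WE.wb (.sub x y) = wadd x.wb y.wb := rfl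
    have e2 : WE.pe (.sub x y) = .sub x.pe y.pe := rfl
    rw [e1, e2, PE.ev_sub]
    exact (abs_sub _ _).trans (wadd_le h hx hy)
  | mul x y hx hy =>
    have e1 : WE.wb (.mul x y) = (x.wb.1 + y.wb.1, x.wb.2 * y.wb.2) := rfl
    have e2 : WE.pe (.mul x y) = .mul x.pe y.pe := rfl
    rw [e1, e2, PE.ev_mul, abs_mul]
    refine (mul_le_mul hx hy (abs_nonneg _) (by positivity)).trans (le_of_eq ?_)
    simp only
    push_cast
    ring
  | pow x n hx =>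
    have e1 : WE.wb (.pow x n) = (n * x.wb.1, x.wb.2 ^ n) := rfl
    have e2 : WE.pe (.pow x n) = .pow x.pe n := rfl
    rw [e1, e2, PE.ev_pow, abs_pow]
    refine (pow_le_pow_left₀ (abs_nonneg _) hx n).trans (le_of_eq ?_)
    simp only
    push_cast
    rw [mul_pow, ← pow_mul, mul_comm n]

/-- the weight is large enough -/
def WE.ok (h n : ℕ) (e : WE) : Bool := decide (e.wb.2 = 0) || decide (2 * n ≤ e.wb.1 + 2 * h)

/-- the final bound -/
def WE.bd (h n : ℕ) (e : WE) : ℕ := e.wb.2 * 2 ^ ((e.wb.1 + 2 * h - 2 * n + 1) / 2)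

theorem WE.le_bd {f : ℕ → ℝ} (hf : Rg f) {e : WE} {h n : ℕ} (hn : WE.ok h n e = true) :
    |PE.ev f e.pe| * (1 - f 4) ^ h ≤ WE.bd h n e * (1 - f 4 * f 0) ^ n := by
  have h0 := hf.rho0
  have h2 := hf.rho2
  have hT : 0 ≤ 1 - f 4 := by linarith [hf.T1]
  have k1 := e.le hf
  unfold WE.ok at hn
  rw [Bool.or_eq_true, decide_eq_true_eq, decide_eq_true_eq] at hn
  rcases hn with hn | hn'
  · rw [hn, Nat.cast_zero, zero_mul] at k1
    unfold WE.bd
    rw [abs_nonpos_iff.1 k1, hn]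
    simp
  have k2 : (1 - f 4) ^ h ≤ rho f ^ (2 * h) := by
    rw [pow_mul, h2]
    exact pow_le_pow_left₀ hT hf.TP _
  calc |PE.ev f e.pe| * (1 - f 4) ^ h ≤ (e.wb.2 * rho f ^ e.wb.1) * rho f ^ (2 * h) := by gcongr
    _ = e.wb.2 * (rho f ^ (e.wb.1 + 2 * h - 2 * n) * rho f ^ (2 * n)) := by
      rw [mul_assoc, ← pow_add, ← pow_add]
      congr 2
      omega
    _ ≤ e.wb.2 * (2 ^ ((e.wb.1 + 2 * h - 2 * n + 1) / 2) * rho f ^ (2 * n)) := by
      gcongr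
      exact hf.rho_le _
    _ = _ := by
      rw [pow_mul (rho f), h2]
      unfold WE.bd
      push_cast
      ring

/-- the ranges on unit vectors -/
theorem rg_vT {E : Type*} [NormedAddCommGroup E] [InnerProductSpace ℝ E] {x N y w : E}
    (hx : ‖x‖ = 1) (hN : ‖N‖ = 1) (hy : ‖y‖ = 1) (hw : ‖w‖ = 1) (hxN : ⟪x, N⟫ = 0)
    (hyw : ⟪y, w⟫ = 0) {T : ℝ} (h0 : 0 < T) (h1 : T < 1) :
    Rg (vT T ⟪x, y⟫ ⟪x, w⟫ ⟪N, y⟫ ⟪N, w⟫) := by
  have h6 : √(20 : ℝ) ^ 2 = 20 := Real.sq_sqrt (by norm_num)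
  have h60 : 0 < √(20 : ℝ) := by positivity
  have hs := abs_real_inner_le_norm x y
  have hc := abs_real_inner_le_norm N w
  rw [hx, hy, one_mul] at hs
  rw [hN, hw, one_mul] at hc
  obtain ⟨hs1, hs2⟩ := abs_le.1 hs
  -- Bessel
  have ht : ⟪x, y⟫ ^ 2 + ⟪x, w⟫ ^ 2 ≤ 1 := by
    have e1 : 0 ≤ ‖x - ⟪x, y⟫ • y - ⟪x, w⟫ • w‖ ^ 2 := sq_nonneg _
    have e2 : ‖x - ⟪x, y⟫ • y - ⟪x, w⟫ • w‖ ^ 2 = 1 - ⟪x, y⟫ ^ 2 - ⟪x, w⟫ ^ 2 := by
      rw [← real_inner_self_eq_norm_sq]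
      simp only [inner_sub_left, inner_sub_right, real_inner_smul_left, real_inner_smul_right]
      have a1 : ⟪x, x⟫ = 1 := by rw [real_inner_self_eq_norm_sq, hx]; norm_num
      have a2 : ⟪y, y⟫ = 1 := by rw [real_inner_self_eq_norm_sq, hy]; norm_num
      have a3 : ⟪w, w⟫ = 1 := by rw [real_inner_self_eq_norm_sq, hw]; norm_num
      rw [a1, a2, a3, real_inner_comm x y, real_inner_comm x w, real_inner_comm y w, hyw]
      ring
    linarith
  have hp : ⟪x, y⟫ ^ 2 + ⟪N, y⟫ ^ 2 ≤ 1 := by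
    have e1 : 0 ≤ ‖y - ⟪x, y⟫ • x - ⟪N, y⟫ • N‖ ^ 2 := sq_nonneg _
    have e2 : ‖y - ⟪x, y⟫ • x - ⟪N, y⟫ • N‖ ^ 2 = 1 - ⟪x, y⟫ ^ 2 - ⟪N, y⟫ ^ 2 := by
      rw [← real_inner_self_eq_norm_sq]
      simp only [inner_sub_left, inner_sub_right, real_inner_smul_left, real_inner_smul_right]
      have a1 : ⟪x, x⟫ = 1 := by rw [real_inner_self_eq_norm_sq, hx]; norm_num
      have a2 : ⟪y, y⟫ = 1 := by rw [real_inner_self_eq_norm_sq, hy]; norm_num
      have a3 : ⟪N, N⟫ = 1 := by rw [real_inner_self_eq_norm_sq, hN]; norm_num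
      have a4 : ⟪N, x⟫ = 0 := by rw [real_inner_comm, hxN]
      rw [a1, a2, a3, a4, hxN, real_inner_comm x y, real_inner_comm N y]
      ring
    linarith
  generalize ⟪x, y⟫ = s at *
  generalize ⟪x, w⟫ = t at *
  generalize ⟪N, y⟫ = p at *
  generalize ⟪N, w⟫ = c at *
  have hTs : T * s ≤ T := by nlinarith
  have hTs' : -T ≤ T * s := by nlinarith
  have hPs : 1 - s ^ 2 ≤ 2 * (1 - T * s) := by
    rcases le_total 0 s with h | h
    · nlinarith
    · nlinarith [mul_nonneg h0.le (neg_nonneg.2 h)]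
  have ht2 : t ^ 2 ≤ 2 * (1 - T * s) := by linarith
  have hp2 : p ^ 2 ≤ 2 * (1 - T * s) := by linarith
  have ht1 : t ^ 2 ≤ 1 := by nlinarith
  have hp1 : p ^ 2 ≤ 1 := by nlinarith
  have h2 : (t + p) ^ 2 ≤ 2 * (t ^ 2 + p ^ 2) := by nlinarith [sq_nonneg (t - p)]
  have h2' : (p - t) ^ 2 ≤ 2 * (t ^ 2 + p ^ 2) := by nlinarith [sq_nonneg (t + p)]
  have e1 : ((t + p) / (2 * √20)) ^ 2 = (t + p) ^ 2 / 80 := by
    rw [div_pow, mul_pow, h6]; norm_num
  have e2 : ((p - t) / (2 * √20)) ^ 2 = (p - t) ^ 2 / 80 := by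
    rw [div_pow, mul_pow, h6]; norm_num
  have hP0 : 0 < 1 - T * s := by linarith
  have k1 : ((t + p) / (2 * √20)) ^ 2 ≤ 1 - T * s := by rw [e1]; linarith
  have k2 : ((p - t) / (2 * √20)) ^ 2 ≤ 1 - T * s := by rw [e2]; linarith
  have k3 : |(t + p) / (2 * √20)| ≤ 1 := by
    rw [← sq_le_one_iff_abs_le_one, e1]; linarith
  have k4 : |(p - t) / (2 * √20)| ≤ 1 := by
    rw [← sq_le_one_iff_abs_le_one, e2]; linarith
  exact
    { T0 := h0.le
      T1 := h1.le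
      TP := by rw [vT4, vT0]; linarith
      P0 := by rw [vT4, vT0]; exact hP0
      P2 := by rw [vT4, vT0]; linarith
      s0 := by rw [vT0]; linarith
      sm := by rw [vT0]; exact hs1
      sP := by
        rw [vT4, vT0]
        rcases le_total 0 s with h | h
        · nlinarith
        · nlinarith [mul_nonneg h0.le (neg_nonneg.2 h)]
      t1 := by rw [vT1]; exact k3
      t2 := by rw [vT1, vT4, vT0]; exact k1
      u1 := by rw [vT2]; exact k4
      u2 := by rw [vT2, vT4, vT0]; exact k2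
      v3 := by
        rw [vT3]
        obtain ⟨k5, k6⟩ := abs_le.1 k3
        obtain ⟨k7, k8⟩ := abs_le.1 hc
        rw [abs_le]
        constructor <;> linarith }

end

end Vale.Agent.P224.S9
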