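import Vale.Agent.P224.OT.Sharp

/-!
The certificate with a parameter in dimension 9 at the parameter zero: the static rows and the
identity with the resources.
-/

namespace Vale.Agent.P224.S9

open MeasureTheory Set Vale.Agent.P224.UE Vale.Agent.P224.PO
open scoped RealInnerProductSpace

noncomputable section

/-- the rows at the parameter zero; `r` is a square root of `20`, `l` the number
`log (16 / 5)`, `κ` the coefficient of `s ^ 3` -/
def S0 (r l κ : ℝ) : OT.SCert :=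
  [(⟨0, 0, 0, 0, 0, 0, 0, 0⟩, fun _ => (-6 * l + 7) * (-400 / 6561) + κ * (-446702 / 26040609)),
   (⟨0, 0, 0, 1, 0, 0, 0, 0⟩, fun _ => ((-6 * l + 7) * (15535 / 4239)) * (r * (1 / 20))),
   (⟨0, 1, 0, 0, 0, 0, 0, 0⟩, fun _ => (-6 * l + 7) * (-6332105 / 228906)),
   (⟨1, 0, 0, 1, 0, 0, 0, 0⟩, fun _ => ((-6 * l + 7) * (-147500 / 4239)) * (1 / 20)),
   (⟨3, 0, 0, 0, 0, 0, 0, 0⟩, fun _ => (-6 * l + 7) * (-39050 / 38151)),
   (⟨0, 0, 0, 2, 0, 0, 0, 0⟩, fun _ => (κ * (-650800 / 2893401)) * (1 / 20)),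
   (⟨0, 1, 0, 1, 0, 0, 0, 0⟩, fun _ => (κ * (113360 / 2893401)) * (r * (1 / 20))),
   (⟨0, 2, 0, 0, 0, 0, 0, 0⟩, fun _ => κ * (-256931 / 2893401)),
   (⟨1, 0, 0, 0, 0, 0, 0, 0⟩, fun _ => (κ * (92560 / 26040609)) * (r * (1 / 20))),
   (⟨1, 0, 0, 2, 0, 0, 0, 0⟩, fun _ => (κ * (-208000 / 2893401)) * (r * (1 / 400))),
   (⟨1, 1, 0, 1, 0, 0, 0, 0⟩, fun _ => (κ * (1343200 / 2893401)) * (1 / 20)),
   (⟨1, 2, 0, 0, 0, 0, 0, 0⟩, fun _ => (κ * (-14720 / 413343)) * (r * (1 / 20))),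
   (⟨3, 1, 0, 0, 0, 0, 0, 0⟩, fun _ => κ * (13432 / 2893401))]

/-- the symmetrised rows at the parameter zero -/
def R00 (r l κ : ℝ) (d : R9) : ℝ :=
  (OT.Rs 9 (S0 r l κ) 0 d + OT.Rs 9 (S0 r l κ) 0 (sw9 d)) / 2

/-- the rows with the special value at the parameter zero -/
def RoT (r l κ : ℝ) (S : OT.SCert) (T : ℝ) (d : R9) : ℝ :=
  if T = 0 then R00 r l κ d else (OT.Rs 9 S T d + OT.Rs 9 S T (sw9 d)) / 2

lemma RoT_zero (r l κ : ℝ) (S : OT.SCert) (d : R9) : RoT r l κ S 0 d = R00 r l κ d :=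
  if_pos rfl

lemma RoT_pos (r l κ : ℝ) (S : OT.SCert) {T : ℝ} (hT : 0 < T) (d : R9) :
    RoT r l κ S T d = (OT.Rs 9 S T d + OT.Rs 9 S T (sw9 d)) / 2 :=
  if_neg hT.ne'

/-- the static rows are null -/
theorem null_R00 {X : Type*} [MeasurableSpace X] {E : Type*} [NormedAddCommGroup E]
    [InnerProductSpace ℝ E] [MeasurableSpace E] [BorelSpace E] [SecondCountableTopology E]
    {μ : Measure X} [IsFiniteMeasure μ] {p n : X → E} (hG : TwoG μ 9 p n) (r l κ : ℝ) :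
    Null μ p n 0 (R00 r l κ) := by
  have e : R00 r l κ = fun d => (OT.Rs 9 (S0 r l κ) 0 d
      + OT.Rs 9 (S0 r l κ) 0 (sw9 d)) / 2 := rfl
  rw [e]
  exact OT.null_sym hG _ ⟨le_rfl, one_pos⟩

/-- the rows are null -/
theorem null_RoT {X : Type*} [MeasurableSpace X] {E : Type*} [NormedAddCommGroup E]
    [InnerProductSpace ℝ E] [MeasurableSpace E] [BorelSpace E] [SecondCountableTopology E]
    {μ : Measure X} [IsFiniteMeasure μ] {p n : X → E} (hG : TwoG μ 9 p n) (r l κ : ℝ)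
    (S : OT.SCert) {T : ℝ} (hT : T ∈ Ico (0 : ℝ) 1) : Null μ p n 0 (RoT r l κ S T) := by
  rcases hT.1.eq_or_lt with h | h
  · subst h
    have e : RoT r l κ S 0 = R00 r l κ := by
      funext d
      exact RoT_zero _ _ _ _ _
    rw [e]
    exact null_R00 hG r l κ
  · have e : RoT r l κ S T = fun d => (OT.Rs 9 S T d + OT.Rs 9 S T (sw9 d)) / 2 := by
      funext d
      exact RoT_pos _ _ _ _ h _
    rw [e]
    exact OT.null_sym hG _ hT

/-- the value part at the parameter zero (the functions of the base) -/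
def G00 (r l K : ℝ) (s t p c : ℝ) : ℝ :=
  ((-3049898446602 + 2697881494140 * l - 0 * K) / 97629963228) * (1) +
    ((-187492384800 + 160707758400 * l - 0 * K) / 97629963228) * ((1 - s) ^ 2) +
    ((712624117248 + (-440798423040) * l - (-881596846080) * K) / 97629963228) * (c) +
    ((-70309644300 + 60265409400 * l - 0 * K) / 97629963228) * (c * (r / 20 * (t + p) / 2)) +
    ((-56247715440 + 48212327520 * l - 0 * K) / 97629963228) * (c * (r / 20 * (t + p) / 2)) +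
    ((216342775511100 + (-185436664723800) * l - 0 * K) / 97629963228) * (((t ^ 2 + p ^ 2) / 40)) +
    ((315830922195600 + (-270712219024800) * l - 0 * K) / 97629963228) * (((t ^ 2 + p ^ 2) / 40)) +
    ((208444658801400 + (-178666850401200) * l - 0 * K) / 97629963228) * (((t ^ 2 + p ^ 2) / 40))

/-- **The identity at the parameter zero.** -/
theorem zero_id {r : ℝ} (hr : r ^ 2 = 20) (l K κ : ℝ) (d : R9) :
    1 + ((12416 / 1701) + (-2560 / 567) * l + (5120 / 567) * K + (13432 / 2893401) * κ) * d 3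
      - ((900 / 157) * (-6 * l + 7) * RF (-(77/18)) 48 (-((7 / 20) * r)) d + κ * d 0 ^ 3)
      + R00 r l κ d
      = G00 r l K (d 0) (d 1) (d 2) (d 3)
        + (-6 * l + 7) * ((7375 / 4239) * (d 3 - d 0 - r / 40 * (d 1 + d 2)) ^ 2
          - (1554625 / 4239) * (r / 40 * (d 2 - d 1)) ^ 2)
        + κ * ((41600 / 2893401) * ((r / 40 * (d 2 - d 1)) ^ 2 * (d 3 - d 0 - r / 40 * (d 1 + d 2))) +
          (20800 / 2893401) * ((r / 40 * (d 1 + d 2)) * (d 3 - d 0 - r / 40 * (d 1 + d 2)) ^ 2) +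
          (20800 / 6561) * ((r / 40 * (d 1 + d 2)) * (r / 40 * (d 2 - d 1)) ^ 2) +
          (-67160 / 2893401) * (d 0 * (d 3 - d 0 - r / 40 * (d 1 + d 2)) ^ 2) +
          (598760 / 321489) * (d 0 * (r / 40 * (d 2 - d 1)) ^ 2)) := by
  have e0 : sw9 d 0 = d 0 := rfl
  have e1 : sw9 d 1 = d 2 := rfl
  have e2 : sw9 d 2 = d 1 := rfl
  have e3 : sw9 d 3 = d 3 := rfl
  obtain ⟨s, hs⟩ : ∃ s, d 0 = s := ⟨_, rfl⟩
  obtain ⟨t, ht⟩ : ∃ t, d 1 = t := ⟨_, rfl⟩
  obtain ⟨p, hp⟩ : ∃ p, d 2 = p := ⟨_, rfl⟩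
  obtain ⟨c, hc⟩ : ∃ c, d 3 = c := ⟨_, rfl⟩
  have k0 : ∀ q s, SM2.ker 0 q s = 1 := by
    intro q s
    simp [SM2.ker]
  simp only [R00, S0, OT.Rs, OT.STerm.R, rG, rowE, sk, sk', RF, G00, List.map_cons, List.map_nil,
    List.sum_cons, List.sum_nil, e0, e1, e2, e3, hs, ht, hp, hc, k0, pow_zero, pow_one, one_mul,
    mul_one, Nat.cast_zero, Nat.cast_one, Nat.cast_ofNat, zero_mul, mul_zero, add_zero, zero_add,
    Nat.sub_self, Nat.add_one_sub_one, Nat.reduceSub]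
  linear_combination (
    (72205 / 45216) * p ^ 2 + (-10315 / 7536) * p ^ 2 * l + (-143 / 2893401) * p ^ 3 * r * κ +
    (-27335 / 8478) * t * p + (3905 / 1413) * t * p * l + (104 / 2893401) * t * p * c * κ +
    (1417 / 28934010) * t * p ^ 2 * r * κ + (72205 / 45216) * t ^ 2 + (-10315 / 7536) * t ^ 2
    * l + (1417 / 28934010) * t ^ 2 * p * r * κ + (-143 / 2893401) * t ^ 3 * r * κ + (-9503 /
    8266860) * s * p ^ 2 * κ + (6716 / 2893401) * s * t * p * κ + (-9503 / 8266860) * s * t ^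
    2 * κ) * hr

end

end Vale.Agent.P224.S9
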